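import Crest.Agent.R213.F.Wirt

/-!
# Row 213, part F, F5b: positivity in the chart `U_k` (helper380)
-/

set_option autoImplicit false

open Set Filter Topology
open Crest.GeometryTopology.ProjKahler
open scoped ComplexOrder

noncomputable section

namespace Crest.Agent.R213.F

open W

namespace CK

variable {n : ℕ} (k : Fin n)

/-- `a = 1 + ‖u‖² - |u_k|²` -/
def ca (u : V n) : ℝ := 1 + ‖u‖ ^ 2 - ‖u k‖ ^ 2

/-- `q = |u_k|²/a` -/
def cq (u : V n) : ℝ := ‖u k‖ ^ 2 / ca k u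

/-- `∂̄ a` -/
def at' (z : V n) (c : Fin n) : ℂ := if c = k then 0 else z c

/-- `∂̄ |u_k|²` -/
def kt (z : V n) (c : Fin n) : ℂ := if c = k then z k else 0

theorem ca_eq (u : V n) : ca k u = 1 + ∑ j ∈ Finset.univ.erase k, ‖u j‖ ^ 2 := by
  unfold ca
  rw [norm_sq_eq_sum, ← Finset.add_sum_erase _ _ (Finset.mem_univ k)]
  ring

theorem ca_ge_one (u : V n) : 1 ≤ ca k u := by
  rw [ca_eq]
  have : 0 ≤ ∑ j ∈ Finset.univ.erase k, ‖u j‖ ^ 2 := Finset.sum_nonneg fun j _ => by positivity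
  linarith

theorem ca_pos (u : V n) : 0 < ca k u := lt_of_lt_of_le one_pos (ca_ge_one k u)

theorem cq_nonneg (u : V n) : 0 ≤ cq k u := div_nonneg (by positivity) (ca_pos k u).le

theorem cq_mul (u : V n) : ‖u k‖ ^ 2 = cq k u * ca k u := by
  unfold cq
  rw [div_mul_cancel₀ _ (ca_pos k u).ne']

theorem hasW_ca (z : V n) :
    HasW (fun u => ((ca k u : ℝ) : ℂ)) z (fun c => (starRingEnd ℂ) (at' k z c)) (at' k z) := by
  have h := ((hasW_const 1 z).add (hasW_normSq z)).sub (hasW_sq k z)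
  refine (h.congr_fun ?_).congr_coeff ?_ ?_
  · intro u
    unfold ca
    push_cast
    rfl
  · intro c
    unfold at'
    by_cases hc : c = k <;> simp [hc]
  · intro c
    unfold at'
    by_cases hc : c = k <;> simp [hc]

theorem hasW_inv_ca (z : V n) :
    HasW (fun u => (((ca k u)⁻¹ : ℝ) : ℂ)) z
      (fun c => ((-(ca k z ^ 2)⁻¹ : ℝ) : ℂ) * (starRingEnd ℂ) (at' k z c))
      (fun c => ((-(ca k z ^ 2)⁻¹ : ℝ) : ℂ) * at' k z c) := by
  have h := (hasW_ca k z).comp_real (K := fun r => r⁻¹) (hasDerivAt_inv (ca_pos k z).ne')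
  exact h

theorem hasW_cq (z : V n) :
    HasW (fun u => ((cq k u : ℝ) : ℂ)) z
      (fun c => ((ca k z)⁻¹ : ℂ) * ((starRingEnd ℂ) (kt k z c) -
        cq k z * (starRingEnd ℂ) (at' k z c)))
      (fun c => ((ca k z)⁻¹ : ℂ) * (kt k z c - cq k z * at' k z c)) := by
  have h := (hasW_sq k z).mul (hasW_inv_ca k z)
  have hne : ((ca k z : ℝ) : ℂ) ≠ 0 := by exact_mod_cast (ca_pos k z).ne'
  refine (h.congr_fun ?_).congr_coeff ?_ ?_
  · intro u
    unfold cq
    push_cast
    rfl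
  · intro c
    rw [cq_mul k z]
    unfold at' kt
    by_cases hc : c = k
    · simp [hc]
    · simp only [hc, if_false]
      push_cast
      field_simp
      simp
  · intro c
    rw [cq_mul k z]
    unfold at' kt
    by_cases hc : c = k
    · simp [hc]
    · simp only [hc, if_false]
      push_cast
      field_simp
      simp

theorem hasW_at (z : V n) (b : Fin n) :
    HasW (fun u => at' k u b) z (fun c => if c = b ∧ b ≠ k then 1 else 0) 0 := by
  by_cases hb : b = k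
  · have : (fun u : V n => at' k u b) = fun _ => 0 := by
      funext u; simp [at', hb]
    rw [this]
    refine (hasW_const 0 z).congr_coeff ?_ ?_
    · intro c; simp [hb]
    · intro c; rfl
  · have : (fun u : V n => at' k u b) = fun u => u b := by
      funext u; simp [at', hb]
    rw [this]
    refine (hasW_coord b z).congr_coeff ?_ ?_
    · intro c; simp [hb]
    · intro c; rfl

theorem hasW_kt (z : V n) (b : Fin n) :
    HasW (fun u => kt k u b) z (fun c => if c = k ∧ b = k then 1 else 0) 0 := by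
  by_cases hb : b = k
  · have : (fun u : V n => kt k u b) = fun u => u k := by
      funext u; simp [kt, hb]
    rw [this]
    refine (hasW_coord k z).congr_coeff ?_ ?_
    · intro c; simp [hb]
    · intro c; rfl
  · have : (fun u : V n => kt k u b) = fun _ => 0 := by
      funext u; simp [kt, hb]
    rw [this]
    refine (hasW_const 0 z).congr_coeff ?_ ?_
    · intro c; simp [hb]
    · intro c; rfl

variable {M M' M'' : ℝ → ℝ}

/-- the potential -/
def Psi (M : ℝ → ℝ) (u : V n) : ℝ := Real.log (ca k u) + M (cq k u)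

theorem dzbar_Psi (h1 : ∀ q, 0 ≤ q → HasDerivWithinAt M (M' q) (Ici 0) q) (z : V n) (b : Fin n) :
    dzbar (fun u => ((Psi k M u : ℝ) : ℂ)) z b =
      ((ca k z)⁻¹ : ℝ) * ((1 - cq k z * M' (cq k z)) * at' k z b + M' (cq k z) * kt k z b) := by
  have hl := (hasW_ca k z).comp_real (K := Real.log) (Real.hasDerivAt_log (ca_pos k z).ne')
  have hM := (hasW_cq k z).comp_within (K := M) (h1 _ (cq_nonneg k z)) (fun u => cq_nonneg k u)
  have h := hl.add hM
  have h' : HasW (fun u => ((Psi k M u : ℝ) : ℂ)) z _ _ := h.congr_fun (by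
    intro u
    unfold Psi
    push_cast
    rfl)
  rw [h'.dzbar]
  push_cast
  ring

/-- explicit form of the complex Hessian -/
def Hm (M' M'' : ℝ → ℝ) (z : V n) (c b : Fin n) : ℂ :=
  ((ca k z)⁻¹ : ℝ) * (((1 - cq k z * M' (cq k z) : ℝ) : ℂ) * (if c = b ∧ b ≠ k then 1 else 0) +
      (M' (cq k z) : ℂ) * (if c = k ∧ b = k then 1 else 0)) +
    (((ca k z)⁻¹ ^ 2 : ℝ) : ℂ) *
      ((((M' (cq k z) + cq k z * M'' (cq k z)) * cq k z - (1 - cq k z * M' (cq k z)) : ℝ) : ℂ) *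
          ((starRingEnd ℂ) (at' k z c) * at' k z b) +
        (M'' (cq k z) : ℂ) * ((starRingEnd ℂ) (kt k z c) * kt k z b) -
        ((M' (cq k z) + cq k z * M'' (cq k z) : ℝ) : ℂ) *
          ((starRingEnd ℂ) (kt k z c) * at' k z b + (starRingEnd ℂ) (at' k z c) * kt k z b))

theorem cHess_Psi (h1 : ∀ q, 0 ≤ q → HasDerivWithinAt M (M' q) (Ici 0) q)
    (h2 : ∀ q, 0 ≤ q → HasDerivWithinAt M' (M'' q) (Ici 0) q) (z : V n) (c b : Fin n) :
    cHess (Psi k M) z c b = Hm k M' M'' z c b := by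
  have e : cHess (Psi k M) z c b =
      dz (fun w => dzbar (fun u => ((Psi k M u : ℝ) : ℂ)) w b) z c := rfl
  rw [e]
  have e2 : (fun w => dzbar (fun u => ((Psi k M u : ℝ) : ℂ)) w b) = fun w =>
      (((ca k w)⁻¹ : ℝ) : ℂ) * ((1 - (cq k w : ℂ) * (M' (cq k w) : ℂ)) * at' k w b +
        (M' (cq k w) : ℂ) * kt k w b) := by
    funext w
    exact dzbar_Psi k h1 w b
  rw [e2]
  have hM := (hasW_cq k z).comp_within (K := M') (h2 _ (cq_nonneg k z)) (fun u => cq_nonneg k u)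
  have hF := (hasW_inv_ca k z).mul ((((hasW_const 1 z).sub ((hasW_cq k z).mul hM)).mul
    (hasW_at k z b)).add (hM.mul (hasW_kt k z b)))
  rw [hF.dz]
  unfold Hm
  simp only [Pi.zero_apply]
  push_cast
  have hne : ((ca k z : ℝ) : ℂ) ≠ 0 := by exact_mod_cast (ca_pos k z).ne'
  field_simp
  ring

/-- the quadratic form -/
theorem quad (M' M'' : ℝ → ℝ) (z : V n) (x : Fin n → ℂ) :
    star x ⬝ᵥ ((Matrix.of fun c b => Hm k M' M'' z c b).mulVec x) =
      (((ca k z)⁻¹ * ((1 - cq k z * M' (cq k z)) * (∑ j ∈ Finset.univ.erase k, ‖x j‖ ^ 2) +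
        M' (cq k z) * ‖x k‖ ^ 2) +
      (ca k z)⁻¹ ^ 2 *
        (((M' (cq k z) + cq k z * M'' (cq k z)) * cq k z - (1 - cq k z * M' (cq k z))) *
            ‖∑ j, at' k z j * x j‖ ^ 2 +
          M'' (cq k z) * ‖z k * x k‖ ^ 2 -
          (M' (cq k z) + cq k z * M'' (cq k z)) *
            (2 * ((starRingEnd ℂ) (z k * x k) * ∑ j, at' k z j * x j).re)) : ℝ) : ℂ) := by
  have hk : ∑ j, kt k z j * x j = z k * x k := by
    unfold kt
    simp
  have hd1 : ∀ c, ∑ b, (if c = b ∧ b ≠ k then (1 : ℂ) else 0) * x b =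
      if c = k then 0 else x c := by
    intro c
    rw [Finset.sum_eq_single c]
    · by_cases hc : c = k <;> simp [hc]
    · intro b _ hb
      have : ¬ (c = b ∧ b ≠ k) := fun h => hb h.1.symm
      simp [this]
    · simp
  have hd2 : ∀ c, ∑ b, (if c = k ∧ b = k then (1 : ℂ) else 0) * x b =
      if c = k then x k else 0 := by
    intro c
    rw [Finset.sum_eq_single k]
    · by_cases hc : c = k <;> simp [hc]
    · intro b _ hb
      simp [hb]
    · simp
  -- rows
  have hrow : ∀ c, ((Matrix.of fun c b => Hm k M' M'' z c b).mulVec x) c =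
      ((ca k z)⁻¹ : ℝ) * (((1 - cq k z * M' (cq k z) : ℝ) : ℂ) * (if c = k then 0 else x c) +
        (M' (cq k z) : ℂ) * (if c = k then x k else 0)) +
      (((ca k z)⁻¹ ^ 2 : ℝ) : ℂ) *
      ((((M' (cq k z) + cq k z * M'' (cq k z)) * cq k z - (1 - cq k z * M' (cq k z)) : ℝ) : ℂ) *
          ((starRingEnd ℂ) (at' k z c) * ∑ j, at' k z j * x j) +
        (M'' (cq k z) : ℂ) * ((starRingEnd ℂ) (kt k z c) * (z k * x k)) -
        ((M' (cq k z) + cq k z * M'' (cq k z) : ℝ) : ℂ) *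
          ((starRingEnd ℂ) (kt k z c) * (∑ j, at' k z j * x j) +
            (starRingEnd ℂ) (at' k z c) * (z k * x k))) := by
    intro c
    rw [← hd1 c, ← hd2 c, ← hk]
    simp only [Matrix.mulVec, dotProduct, Matrix.of_apply, Hm]
    simp only [Finset.mul_sum, ← Finset.sum_add_distrib, ← Finset.sum_sub_distrib]
    refine Finset.sum_congr rfl fun b _ => ?_
    ring
  have hs1 : ∑ c, (starRingEnd ℂ) (x c) * (if c = k then 0 else x c) =
      ((∑ j ∈ Finset.univ.erase k, ‖x j‖ ^ 2 : ℝ) : ℂ) := by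
    rw [← Finset.add_sum_erase _ _ (Finset.mem_univ k)]
    rw [if_pos rfl, mul_zero, zero_add]
    push_cast
    refine Finset.sum_congr rfl fun j hj => ?_
    rw [if_neg (Finset.ne_of_mem_erase hj), Complex.conj_mul']
  have hs2 : ∑ c, (starRingEnd ℂ) (x c) * (if c = k then x k else 0) = ((‖x k‖ ^ 2 : ℝ) : ℂ) := by
    rw [Finset.sum_eq_single k]
    · rw [if_pos rfl, Complex.conj_mul']
      push_cast
      rfl
    · intro b _ hb
      simp [hb]
    · simp
  have hs3 : ∑ c, (starRingEnd ℂ) (x c) * (starRingEnd ℂ) (at' k z c) =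
      (starRingEnd ℂ) (∑ j, at' k z j * x j) := by
    rw [map_sum]
    exact Finset.sum_congr rfl fun j _ => by rw [map_mul, mul_comm]
  have hs4 : ∑ c, (starRingEnd ℂ) (x c) * (starRingEnd ℂ) (kt k z c) =
      (starRingEnd ℂ) (z k * x k) := by
    rw [← hk, map_sum]
    exact Finset.sum_congr rfl fun j _ => by rw [map_mul, mul_comm]
  set p := ∑ j, at' k z j * x j with hp
  set r := z k * x k with hr
  have hsum : star x ⬝ᵥ ((Matrix.of fun c b => Hm k M' M'' z c b).mulVec x) =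
      ((ca k z)⁻¹ : ℝ) * (((1 - cq k z * M' (cq k z) : ℝ) : ℂ) *
          (∑ c, (starRingEnd ℂ) (x c) * (if c = k then 0 else x c)) +
        (M' (cq k z) : ℂ) * (∑ c, (starRingEnd ℂ) (x c) * (if c = k then x k else 0))) +
      (((ca k z)⁻¹ ^ 2 : ℝ) : ℂ) *
      ((((M' (cq k z) + cq k z * M'' (cq k z)) * cq k z - (1 - cq k z * M' (cq k z)) : ℝ) : ℂ) *
          ((∑ c, (starRingEnd ℂ) (x c) * (starRingEnd ℂ) (at' k z c)) * p) +
        (M'' (cq k z) : ℂ) * ((∑ c, (starRingEnd ℂ) (x c) * (starRingEnd ℂ) (kt k z c)) * r) -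
        ((M' (cq k z) + cq k z * M'' (cq k z) : ℝ) : ℂ) *
          ((∑ c, (starRingEnd ℂ) (x c) * (starRingEnd ℂ) (kt k z c)) * p +
            (∑ c, (starRingEnd ℂ) (x c) * (starRingEnd ℂ) (at' k z c)) * r)) := by
    simp only [dotProduct, hrow, Pi.star_apply]
    simp only [Finset.mul_sum, Finset.sum_mul, ← Finset.sum_add_distrib, ← Finset.sum_sub_distrib]
    refine Finset.sum_congr rfl fun b _ => ?_
    simp only [RCLike.star_def]
    ring
  rw [hsum, hs1, hs2, hs3, hs4]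
  have hpp : (starRingEnd ℂ) p * p = ((‖p‖ ^ 2 : ℝ) : ℂ) := by
    rw [Complex.conj_mul']; push_cast; rfl
  have hrr : (starRingEnd ℂ) r * r = ((‖r‖ ^ 2 : ℝ) : ℂ) := by
    rw [Complex.conj_mul']; push_cast; rfl
  have hpr : (starRingEnd ℂ) r * p + (starRingEnd ℂ) p * r =
      ((2 * ((starRingEnd ℂ) r * p).re : ℝ) : ℂ) := by
    have e : (starRingEnd ℂ) ((starRingEnd ℂ) r * p) = (starRingEnd ℂ) p * r :=
      (map_mul (starRingEnd ℂ) ((starRingEnd ℂ) r) p).trans (by rw [Complex.conj_conj, mul_comm])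
    rw [← e]
    exact Complex.add_conj _
  rw [hpp, hrr, hpr]
  push_cast
  ring

theorem herm (M' M'' : ℝ → ℝ) (z : V n) :
    (Matrix.of fun c b => Hm k M' M'' z c b).IsHermitian := by
  apply Matrix.IsHermitian.ext
  intro i j
  simp only [Matrix.of_apply, Hm, RCLike.star_def, map_add, map_mul, map_sub, Complex.conj_ofReal,
    Complex.conj_conj]
  have e1 : (starRingEnd ℂ) (if j = i ∧ i ≠ k then 1 else 0) = if i = j ∧ j ≠ k then 1 else 0 := by
    by_cases h : i = j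
    · subst h; by_cases h' : i = k <;> simp [h']
    · have h' : ¬ j = i := fun e => h e.symm
      simp [h, h']
  have e2 : (starRingEnd ℂ) (if j = k ∧ i = k then 1 else 0) = if i = k ∧ j = k then 1 else 0 := by
    by_cases h : i = k <;> by_cases h' : j = k <;> simp [h, h']
  rw [e1, e2]
  ring

theorem posDef_Hm (M' M'' : ℝ → ℝ) (z : V n) (hA : 0 < 1 - cq k z * M' (cq k z))
    (hB : 0 < M' (cq k z) + cq k z * M'' (cq k z)) :
    (Matrix.of fun c b => Hm k M' M'' z c b).PosDef := by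
  refine Matrix.PosDef.of_dotProduct_mulVec_pos (herm k M' M'' z) fun x hx => ?_
  rw [quad]
  have ha := ca_pos k z
  have ha1 := ca_ge_one k z
  have hq := cq_nonneg k z
  set A := 1 - cq k z * M' (cq k z) with hAdef
  set N := M' (cq k z) + cq k z * M'' (cq k z) with hNdef
  set p := ∑ j, at' k z j * x j with hp
  set ξ := ∑ j ∈ Finset.univ.erase k, ‖x j‖ ^ 2 with hξ
  have hξ0 : 0 ≤ ξ := Finset.sum_nonneg fun j _ => by positivity
  -- Cauchy-Schwarz
  have hp' : p = ∑ j ∈ Finset.univ.erase k, z j * x j := by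
    rw [hp, ← Finset.add_sum_erase _ _ (Finset.mem_univ k)]
    have : at' k z k = 0 := by simp [at']
    rw [this, zero_mul, zero_add]
    refine Finset.sum_congr rfl fun j hj => ?_
    simp [at', Finset.ne_of_mem_erase hj]
  have hCS : ‖p‖ ^ 2 ≤ (ca k z - 1) * ξ := by
    have h1 : ‖p‖ ≤ ∑ j ∈ Finset.univ.erase k, ‖z j‖ * ‖x j‖ := by
      rw [hp']
      refine (norm_sum_le _ _).trans (le_of_eq ?_)
      exact Finset.sum_congr rfl fun j _ => norm_mul _ _
    have h2 := Finset.sum_mul_sq_le_sq_mul_sq (Finset.univ.erase k) (fun j => ‖z j‖)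
      (fun j => ‖x j‖)
    have h3 : ca k z - 1 = ∑ j ∈ Finset.univ.erase k, ‖z j‖ ^ 2 := by
      rw [ca_eq]; ring
    rw [h3]
    refine le_trans ?_ h2
    have h0 : 0 ≤ ‖p‖ := norm_nonneg _
    gcongr
  have hzk : ‖z k * x k‖ ^ 2 = cq k z * ca k z * ‖x k‖ ^ 2 := by
    rw [norm_mul, mul_pow, cq_mul k z]
  -- the second square
  have hsq : ‖(ca k z : ℂ) * x k - (starRingEnd ℂ) (z k) * p‖ ^ 2 =
      ca k z ^ 2 * ‖x k‖ ^ 2 - ca k z * (2 * ((starRingEnd ℂ) (z k * x k) * p).re) +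
        cq k z * ca k z * ‖p‖ ^ 2 := by
    rw [← Complex.normSq_eq_norm_sq, Complex.normSq_sub, Complex.normSq_mul, Complex.normSq_mul,
      Complex.normSq_ofReal, Complex.normSq_conj, Complex.normSq_eq_norm_sq,
      Complex.normSq_eq_norm_sq, Complex.normSq_eq_norm_sq, cq_mul k z]
    have : (((ca k z : ℝ) : ℂ) * x k * (starRingEnd ℂ) ((starRingEnd ℂ) (z k) * p)).re =
        ca k z * ((starRingEnd ℂ) (z k * x k) * p).re := by
      rw [map_mul, Complex.conj_conj, mul_assoc, Complex.re_ofReal_mul]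
      congr 1
      have : (starRingEnd ℂ) (x k * (z k * (starRingEnd ℂ) p)) =
          (starRingEnd ℂ) (z k * x k) * p := by
        simp only [map_mul, Complex.conj_conj]
        ring
      rw [← this, Complex.conj_re]
    rw [this]
    ring
  have key : (ca k z)⁻¹ * (A * ξ + M' (cq k z) * ‖x k‖ ^ 2) +
      (ca k z)⁻¹ ^ 2 * ((N * cq k z - A) * ‖p‖ ^ 2 + M'' (cq k z) * ‖z k * x k‖ ^ 2 -
        N * (2 * ((starRingEnd ℂ) (z k * x k) * p).re)) =
      (ca k z)⁻¹ ^ 2 * (A * (ca k z * ξ - ‖p‖ ^ 2)) +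
      (ca k z)⁻¹ ^ 3 * (N * ‖(ca k z : ℂ) * x k - (starRingEnd ℂ) (z k) * p‖ ^ 2) := by
    rw [hsq, hzk]
    field_simp
    rw [hNdef]
    ring
  have hpos : 0 < (ca k z)⁻¹ ^ 2 * (A * (ca k z * ξ - ‖p‖ ^ 2)) +
      (ca k z)⁻¹ ^ 3 * (N * ‖(ca k z : ℂ) * x k - (starRingEnd ℂ) (z k) * p‖ ^ 2) := by
    have hge : ξ ≤ ca k z * ξ - ‖p‖ ^ 2 := by linarith
    have hi : 0 < (ca k z)⁻¹ := inv_pos.2 ha
    by_cases hξz : ξ = 0
    · -- then `x j = 0` for `j ≠ k`, `p = 0`
      have hp0 : p = 0 := by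
        have : ‖p‖ ^ 2 ≤ 0 := by rw [hξz, mul_zero] at hCS; exact hCS
        have h3 : ‖p‖ = 0 := by
          have := le_antisymm this (by positivity)
          exact pow_eq_zero_iff (two_ne_zero) |>.1 this
        exact norm_eq_zero.1 h3
      have hxj : ∀ j, j ≠ k → x j = 0 := by
        intro j hj
        have h4 := (Finset.sum_eq_zero_iff_of_nonneg (fun j _ => by positivity)).1 hξz j
          (Finset.mem_erase.2 ⟨hj, Finset.mem_univ j⟩)
        have h5 : ‖x j‖ = 0 := pow_eq_zero_iff (two_ne_zero) |>.1 h4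
        exact norm_eq_zero.1 h5
      have hxk : x k ≠ 0 := by
        intro h
        apply hx
        funext j
        by_cases hj : j = k
        · rw [hj, h]; rfl
        · rw [hxj j hj]; rfl
      rw [hξz, hp0]
      simp only [mul_zero, norm_zero, sub_zero]
      have h6 : 0 < ‖(ca k z : ℂ) * x k‖ ^ 2 := by
        have : (ca k z : ℂ) ≠ 0 := by exact_mod_cast ha.ne'
        have : 0 < ‖(ca k z : ℂ) * x k‖ := norm_pos_iff.2 (mul_ne_zero this hxk)
        positivity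
      have h7 : (0 : ℝ) ^ 2 = 0 := by norm_num
      rw [h7]
      have : 0 < (ca k z)⁻¹ ^ 3 * (N * ‖(ca k z : ℂ) * x k‖ ^ 2) := by positivity
      linarith
    · have hξp : 0 < ξ := lt_of_le_of_ne hξ0 (Ne.symm hξz)
      have h8 : 0 < ca k z * ξ - ‖p‖ ^ 2 := lt_of_lt_of_le hξp hge
      have h9 : 0 < (ca k z)⁻¹ ^ 2 * (A * (ca k z * ξ - ‖p‖ ^ 2)) := by positivity
      have h10 : 0 ≤ (ca k z)⁻¹ ^ 3 *
          (N * ‖(ca k z : ℂ) * x k - (starRingEnd ℂ) (z k) * p‖ ^ 2) := by positivity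
      linarith
  rw [key]
  exact_mod_cast hpos

end CK

theorem posDef_chartK {n : ℕ} (k : Fin n) {M M' M'' : ℝ → ℝ}
    (h1 : ∀ q, 0 ≤ q → HasDerivWithinAt M (M' q) (Ici 0) q)
    (h2 : ∀ q, 0 ≤ q → HasDerivWithinAt M' (M'' q) (Ici 0) q)
    (hA : ∀ q, 0 ≤ q → 0 < 1 - q * M' q) (hB : ∀ q, 0 ≤ q → 0 < M' q + q * M'' q) (w : V n) :
    (cHess (fun u : V n => Real.log (1 + ‖u‖ ^ 2 - ‖u k‖ ^ 2) +
      M (‖u k‖ ^ 2 / (1 + ‖u‖ ^ 2 - ‖u k‖ ^ 2))) w).PosDef := by
  have e : (cHess (fun u : V n => Real.log (1 + ‖u‖ ^ 2 - ‖u k‖ ^ 2) +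
      M (‖u k‖ ^ 2 / (1 + ‖u‖ ^ 2 - ‖u k‖ ^ 2))) w) =
      Matrix.of fun c b => CK.Hm k M' M'' w c b := by
    ext c b
    exact CK.cHess_Psi k h1 h2 w c b
  rw [e]
  exact CK.posDef_Hm k M' M'' w (hA _ (CK.cq_nonneg k w)) (hB _ (CK.cq_nonneg k w))

end Crest.Agent.R213.F
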