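import Crest.Agent.R213.FlowDef
import Crest.Prelude.Def_ProjKahler

/-!
# Row 213, part F (geometry): shared definitions (F-CAP helper926)

`x` = momentum coordinate in `[0,1]`, `y = ρ/(1+ρ)` with `ρ = ‖z‖²` (chart `U₀`), `y = 1/(1+q)` with
`q = |w_k|²/a`, `a = 1 + ‖w‖² - |w_k|²` (chart `U_k`).
`f = f(t,x)`: symplectic potential minus the Fubini-Study one, `g = f_x`, `g_x = w`,
`f_t = 110 - S`, `g_t = -S_x`.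
-/

set_option autoImplicit false

open Set MeasureTheory Filter Topology

noncomputable section

namespace Crest.Agent.R213.F

/-- `P = 1 + x(1-x) w` -/
def PP (w : ℝ → ℝ → ℝ) (t x : ℝ) : ℝ := 1 + x * (1 - x) * w t x

/-- `D = 1 - x + x e^g` -/
def DD (g : ℝ → ℝ → ℝ) (t x : ℝ) : ℝ := 1 - x + x * Real.exp (g t x)

/-- `y(t,x) = x e^g / (1 - x + x e^g)` -/
def YY (g : ℝ → ℝ → ℝ) (t x : ℝ) : ℝ := x * Real.exp (g t x) / DD g t x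

/-- the relative Kähler potential as a function of `x` -/
def h0 (f g : ℝ → ℝ → ℝ) (t x : ℝ) : ℝ := x * g t x - f t x - Real.log (DD g t x)

/-- the relative Kähler potential as a function of `y` -/
def HH (f g X : ℝ → ℝ → ℝ) (t y : ℝ) : ℝ := h0 f g t (X t y)

/-- `f`, `g = f_x` -/
structure Pot (T ε : ℝ) (w S f g : ℝ → ℝ → ℝ) : Prop where
  flow : Flow T ε w S
  smf : Sm (Ioo (-ε) T) 1 f
  smg : Sm (Ioo (-ε) T) 1 g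
  fx : ∀ t ∈ Ioo (-ε) T, ∀ x ∈ Icc (0 : ℝ) 1, HasDerivWithinAt (fun r => f t r) (g t x) (Icc 0 1) x
  gx : ∀ t ∈ Ioo (-ε) T, ∀ x ∈ Icc (0 : ℝ) 1, HasDerivWithinAt (fun r => g t r) (w t x) (Icc 0 1) x
  ft : ∀ t ∈ Ioo (-ε) T, ∀ x ∈ Icc (0 : ℝ) 1, HasDerivAt (fun r => f r x) (110 - S t x) t
  gt : ∀ t ∈ Ioo (-ε) T, ∀ x ∈ Icc (0 : ℝ) 1, HasDerivAt (fun r => g r x) (- dx 1 S t x) t

/-- `X(t,·)` is the inverse function of `y(t,·) = YY g t ·` on `[0,1]`. -/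
structure Inv (T ε : ℝ) (w S g X : ℝ → ℝ → ℝ) : Prop where
  sm : Sm (Ioo (-ε) T) 1 X
  mem : ∀ t ∈ Ioo (-ε) T, ∀ y ∈ Icc (0 : ℝ) 1, X t y ∈ Icc (0 : ℝ) 1
  YX : ∀ t ∈ Ioo (-ε) T, ∀ y ∈ Icc (0 : ℝ) 1, YY g t (X t y) = y
  XY : ∀ t ∈ Ioo (-ε) T, ∀ x ∈ Icc (0 : ℝ) 1, X t (YY g t x) = x
  zero : ∀ t ∈ Ioo (-ε) T, X t 0 = 0
  one : ∀ t ∈ Ioo (-ε) T, X t 1 = 1
  pos : ∀ t ∈ Ioo (-ε) T, ∀ y ∈ Ioc (0 : ℝ) 1, 0 < X t y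
  lt_one : ∀ t ∈ Ioo (-ε) T, ∀ y ∈ Ico (0 : ℝ) 1, X t y < 1
  dy : ∀ t ∈ Ioo (-ε) T, ∀ y ∈ Icc (0 : ℝ) 1, HasDerivWithinAt (fun r => X t r)
    (DD g t (X t y) ^ 2 / (Real.exp (g t (X t y)) * PP w t (X t y))) (Icc 0 1) y
  dt : ∀ t ∈ Ioo (-ε) T, ∀ y ∈ Icc (0 : ℝ) 1, HasDerivAt (fun r => X r y)
    (X t y * (1 - X t y) / PP w t (X t y) * dx 1 S t (X t y)) t

end Crest.Agent.R213.F

namespace Crest.Agent.R213.F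

/-! ### chart `U₀`: functions of `ρ = ‖z‖² ≥ 0` -/

/-- `x` as a function of `ρ` -/
def xr (X : ℝ → ℝ → ℝ) (t ρ : ℝ) : ℝ := X t (ρ / (1 + ρ))

/-- full Kähler potential in `U₀` as a function of `ρ` -/
def K0 (f g X : ℝ → ℝ → ℝ) (t ρ : ℝ) : ℝ := Real.log (1 + ρ) + HH f g X t (ρ / (1 + ρ))

/-- `K' = (1-x) e^{-g}` -/
def K1 (g X : ℝ → ℝ → ℝ) (t ρ : ℝ) : ℝ := (1 - xr X t ρ) * Real.exp (-(g t (xr X t ρ)))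

/-- `K'' = -(1-x)² (1+(1-x)w) e^{-2g} / P` -/
def K2 (w g X : ℝ → ℝ → ℝ) (t ρ : ℝ) : ℝ :=
  -((1 - xr X t ρ) ^ 2 * (1 + (1 - xr X t ρ) * w t (xr X t ρ)) *
    Real.exp (-(g t (xr X t ρ))) ^ 2 / PP w t (xr X t ρ))

/-- `log det` in `U₀` (`n = 10`) -/
def L0 (w g X : ℝ → ℝ → ℝ) (t ρ : ℝ) : ℝ :=
  Real.log (K1 g X t ρ ^ 9 * (K1 g X t ρ + ρ * K2 w g X t ρ))

/-! ### chart `U_k`: functions of `q = |w_k|²/a ≥ 0` -/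

/-- `x` as a function of `q` -/
def xq (X : ℝ → ℝ → ℝ) (t q : ℝ) : ℝ := X t (1 / (1 + q))

/-- full Kähler potential in `U_k` is `log a + M0 q` -/
def M0 (f g X : ℝ → ℝ → ℝ) (t q : ℝ) : ℝ := Real.log (1 + q) + HH f g X t (1 / (1 + q))

/-- `M' = x e^g` -/
def M1 (g X : ℝ → ℝ → ℝ) (t q : ℝ) : ℝ := xq X t q * Real.exp (g t (xq X t q))

/-- `M'' = -x² (1+xw) e^{2g} / P` -/
def M2 (w g X : ℝ → ℝ → ℝ) (t q : ℝ) : ℝ :=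
  -(xq X t q ^ 2 * (1 + xq X t q * w t (xq X t q)) *
    Real.exp (g t (xq X t q)) ^ 2 / PP w t (xq X t q))

end Crest.Agent.R213.F
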