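import Crest.Agent.R213.F.FDefs

/-!
# Row 213, part F: sorried sub-interface (NEVER import from a proof file).
Every statement is proved, with the SAME name and statement, in the file named in its section header.
-/

set_option autoImplicit false

open Set MeasureTheory Filter Topology
open Crest.GeometryTopology.ProjKahler
open scoped ComplexOrder

noncomputable section

namespace Crest.Agent.R213.F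

/-! ### F0 (file `F/Pot.lean`): the symplectic potential
`g t x := ∫₀ˣ w(t,s) ds - ∫₀ᵗ S_x(r,0) dr`, `f t x := ∫₀ˣ g(t,s) ds + ∫₀ᵗ (110 - S(r,0)) dr`. -/

theorem exists_pot {T ε : ℝ} {w S : ℝ → ℝ → ℝ} (hF : Flow T ε w S) :
    ∃ f g : ℝ → ℝ → ℝ, Pot T ε w S f g := by
  sorry

/-! ### F1a (file `F/Inverse.lean`): smooth inverse function with parameter on the closed interval -/

theorem exists_inverse {s : Set ℝ} (hs : IsOpen s) {Y : ℝ → ℝ → ℝ} (hY : Sm s 1 Y)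
    (h0 : ∀ t ∈ s, Y t 0 = 0) (h1 : ∀ t ∈ s, Y t 1 = 1)
    (hpos : ∀ t ∈ s, ∀ x ∈ Icc (0 : ℝ) 1, 0 < dx 1 Y t x) :
    ∃ X : ℝ → ℝ → ℝ, Sm s 1 X ∧
      (∀ t ∈ s, ∀ y ∈ Icc (0 : ℝ) 1, X t y ∈ Icc (0 : ℝ) 1 ∧ Y t (X t y) = y) ∧
      (∀ t ∈ s, ∀ x ∈ Icc (0 : ℝ) 1, X t (Y t x) = x) ∧
      (∀ t ∈ s, ∀ y ∈ Icc (0 : ℝ) 1,
        HasDerivWithinAt (fun r => X t r) (dx 1 Y t (X t y))⁻¹ (Icc 0 1) y) ∧
      (∀ t ∈ s, ∀ y ∈ Icc (0 : ℝ) 1,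
        HasDerivAt (fun r => X r y) (- dt Y t (X t y) / dx 1 Y t (X t y)) t) := by
  sorry

/-! ### F1b (file `F/Inv.lean`): the inverse of `YY g` (uses F1a as import or hypothesis) -/

theorem exists_inv {T ε : ℝ} {w S f g : ℝ → ℝ → ℝ} (hP : Pot T ε w S f g) :
    ∃ X : ℝ → ℝ → ℝ, Inv T ε w S g X := by
  sorry

/-! ### F2 (file `F/HH.lean`): the relative potential as a function of `y` -/

theorem HH_sm {T ε : ℝ} {w S f g X : ℝ → ℝ → ℝ} (hP : Pot T ε w S f g) (hX : Inv T ε w S g X) :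
    Sm (Ioo (-ε) T) 1 (HH f g X) := by
  sorry

theorem HH_dt {T ε : ℝ} {w S f g X : ℝ → ℝ → ℝ} (hP : Pot T ε w S f g) (hX : Inv T ε w S g X)
    {t y : ℝ} (ht : t ∈ Ioo (-ε) T) (hy : y ∈ Icc (0 : ℝ) 1) :
    HasDerivAt (fun r => HH f g X r y) (S t (X t y) - 110) t := by
  sorry

theorem HH_dy {T ε : ℝ} {w S f g X : ℝ → ℝ → ℝ} (hP : Pot T ε w S f g) (hX : Inv T ε w S g X)
    {t y : ℝ} (ht : t ∈ Ioo (-ε) T) (hy : y ∈ Icc (0 : ℝ) 1) :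
    HasDerivWithinAt (fun r => HH f g X t r)
      (-((Real.exp (g t (X t y)) - 1) * DD g t (X t y) / Real.exp (g t (X t y)))) (Icc 0 1) y := by
  sorry

/-! ### F4a (file `F/OneD.lean`): one-dimensional facts in both charts (use F2 as hypotheses/import) -/

theorem hasDeriv_K0 {T ε : ℝ} {w S f g X : ℝ → ℝ → ℝ} (hP : Pot T ε w S f g)
    (hX : Inv T ε w S g X) {t ρ : ℝ} (ht : t ∈ Ioo (-ε) T) (hρ : 0 ≤ ρ) :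
    HasDerivWithinAt (K0 f g X t) (K1 g X t ρ) (Ici 0) ρ := by
  sorry

theorem hasDeriv_K1 {T ε : ℝ} {w S f g X : ℝ → ℝ → ℝ} (hP : Pot T ε w S f g)
    (hX : Inv T ε w S g X) {t ρ : ℝ} (ht : t ∈ Ioo (-ε) T) (hρ : 0 ≤ ρ) :
    HasDerivWithinAt (K1 g X t) (K2 w g X t ρ) (Ici 0) ρ := by
  sorry

theorem K1_pos {T ε : ℝ} {w S f g X : ℝ → ℝ → ℝ} (hP : Pot T ε w S f g)
    (hX : Inv T ε w S g X) {t ρ : ℝ} (ht : t ∈ Ioo (-ε) T) (hρ : 0 ≤ ρ) : 0 < K1 g X t ρ := by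
  sorry

/-- `ρ = x e^g/(1-x)` gives `K' + ρ K'' = (1-x)² e^{-g}/P` -/
theorem K1_add {T ε : ℝ} {w S f g X : ℝ → ℝ → ℝ} (hP : Pot T ε w S f g)
    (hX : Inv T ε w S g X) {t ρ : ℝ} (ht : t ∈ Ioo (-ε) T) (hρ : 0 ≤ ρ) :
    K1 g X t ρ + ρ * K2 w g X t ρ =
      (1 - xr X t ρ) ^ 2 * Real.exp (-(g t (xr X t ρ))) / PP w t (xr X t ρ) ∧
    0 < K1 g X t ρ + ρ * K2 w g X t ρ := by
  sorry

theorem hasDeriv_xr {T ε : ℝ} {w S f g X : ℝ → ℝ → ℝ} (hP : Pot T ε w S f g)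
    (hX : Inv T ε w S g X) {t ρ : ℝ} (ht : t ∈ Ioo (-ε) T) (hρ : 0 ≤ ρ) :
    HasDerivWithinAt (xr X t)
      ((1 - xr X t ρ) ^ 2 * Real.exp (-(g t (xr X t ρ))) / PP w t (xr X t ρ)) (Ici 0) ρ := by
  sorry

theorem hasDeriv_M0 {T ε : ℝ} {w S f g X : ℝ → ℝ → ℝ} (hP : Pot T ε w S f g)
    (hX : Inv T ε w S g X) {t q : ℝ} (ht : t ∈ Ioo (-ε) T) (hq : 0 ≤ q) :
    HasDerivWithinAt (M0 f g X t) (M1 g X t q) (Ici 0) q := by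
  sorry

theorem hasDeriv_M1 {T ε : ℝ} {w S f g X : ℝ → ℝ → ℝ} (hP : Pot T ε w S f g)
    (hX : Inv T ε w S g X) {t q : ℝ} (ht : t ∈ Ioo (-ε) T) (hq : 0 ≤ q) :
    HasDerivWithinAt (M1 g X t) (M2 w g X t q) (Ici 0) q := by
  sorry

/-- `q = (1-x) e^{-g}/x`: `1 - q M' = x > 0`, `M' + q M'' = x² e^g / P > 0` -/
theorem M_pos {T ε : ℝ} {w S f g X : ℝ → ℝ → ℝ} (hP : Pot T ε w S f g)
    (hX : Inv T ε w S g X) {t q : ℝ} (ht : t ∈ Ioo (-ε) T) (hq : 0 ≤ q) :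
    0 < 1 - q * M1 g X t q ∧ 0 < M1 g X t q + q * M2 w g X t q := by
  sorry

/-! ### F4c (file `F/Scal.lean`): the scalar curvature identity in one variable.
With `ψ = (1-x)/P`, `r = (1+(1-x)w)/P = (1-ψ)/x`:  `S = 90 r - 20 ψ' - x ψ''` (differentiate `Flow.scal`
twice, `x=0` by continuity), `L0 = l(x)`, `l = 11 log(1-x) - 10 g - log P`, `ψ l_x = -10 r + ψ'`,
`ρ L1 = m(x)`, `m = 10ψ + xψ' - 10`. -/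

theorem exists_L {T ε : ℝ} {w S f g X : ℝ → ℝ → ℝ} (hP : Pot T ε w S f g)
    (hX : Inv T ε w S g X) {t : ℝ} (ht : t ∈ Ioo (-ε) T) :
    ∃ L1 L2 : ℝ → ℝ,
      (∀ ρ, 0 ≤ ρ → HasDerivWithinAt (L0 w g X t) (L1 ρ) (Ici 0) ρ) ∧
      (∀ ρ, 0 ≤ ρ → HasDerivWithinAt L1 (L2 ρ) (Ici 0) ρ) ∧
      ∀ ρ, 0 ≤ ρ → -(9 * (L1 ρ / K1 g X t ρ) +
        (L1 ρ + ρ * L2 ρ) / (K1 g X t ρ + ρ * K2 w g X t ρ)) = S t (xr X t ρ) := by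
  sorry

/-! ### F3 (file `F/Radial.lean`): radial potentials in `ℂⁿ` -/

theorem cHess_radial {n : ℕ} {K K' K'' : ℝ → ℝ}
    (h1 : ∀ ρ, 0 ≤ ρ → HasDerivWithinAt K (K' ρ) (Ici 0) ρ)
    (h2 : ∀ ρ, 0 ≤ ρ → HasDerivWithinAt K' (K'' ρ) (Ici 0) ρ) (z : V n) (a b : Fin n) :
    cHess (fun u : V n => K (‖u‖ ^ 2)) z a b =
      (if a = b then (K' (‖z‖ ^ 2) : ℂ) else 0) +
        (K'' (‖z‖ ^ 2) : ℂ) * (starRingEnd ℂ (z a)) * z b := by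
  sorry

theorem posDef_radial {n : ℕ} {K K' K'' : ℝ → ℝ}
    (h1 : ∀ ρ, 0 ≤ ρ → HasDerivWithinAt K (K' ρ) (Ici 0) ρ)
    (h2 : ∀ ρ, 0 ≤ ρ → HasDerivWithinAt K' (K'' ρ) (Ici 0) ρ) (z : V n)
    (hp1 : 0 < K' (‖z‖ ^ 2)) (hp2 : 0 < K' (‖z‖ ^ 2) + ‖z‖ ^ 2 * K'' (‖z‖ ^ 2)) :
    (cHess (fun u : V n => K (‖u‖ ^ 2)) z).PosDef := by
  sorry

theorem scalarCurv_radial {K K' K'' L L' L'' : ℝ → ℝ}
    (h1 : ∀ ρ, 0 ≤ ρ → HasDerivWithinAt K (K' ρ) (Ici 0) ρ)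
    (h2 : ∀ ρ, 0 ≤ ρ → HasDerivWithinAt K' (K'' ρ) (Ici 0) ρ)
    (hp1 : ∀ ρ, 0 ≤ ρ → 0 < K' ρ) (hp2 : ∀ ρ, 0 ≤ ρ → 0 < K' ρ + ρ * K'' ρ)
    (hL : ∀ ρ, 0 ≤ ρ → L ρ = Real.log (K' ρ ^ 9 * (K' ρ + ρ * K'' ρ)))
    (h3 : ∀ ρ, 0 ≤ ρ → HasDerivWithinAt L (L' ρ) (Ici 0) ρ)
    (h4 : ∀ ρ, 0 ≤ ρ → HasDerivWithinAt L' (L'' ρ) (Ici 0) ρ) (z : V 10) :
    scalarCurv (fun u : V 10 => K (‖u‖ ^ 2)) z =
      -(9 * (L' (‖z‖ ^ 2) / K' (‖z‖ ^ 2)) +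
        (L' (‖z‖ ^ 2) + ‖z‖ ^ 2 * L'' (‖z‖ ^ 2)) /
          (K' (‖z‖ ^ 2) + ‖z‖ ^ 2 * K'' (‖z‖ ^ 2))) := by
  sorry

/-! ### F5b (file `F/ChartK.lean`): positivity in the chart `U_k` -/

theorem posDef_chartK {n : ℕ} (k : Fin n) {M M' M'' : ℝ → ℝ}
    (h1 : ∀ q, 0 ≤ q → HasDerivWithinAt M (M' q) (Ici 0) q)
    (h2 : ∀ q, 0 ≤ q → HasDerivWithinAt M' (M'' q) (Ici 0) q)
    (hA : ∀ q, 0 ≤ q → 0 < 1 - q * M' q) (hB : ∀ q, 0 ≤ q → 0 < M' q + q * M'' q) (w : V n) :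
    (cHess (fun u : V n => Real.log (1 + ‖u‖ ^ 2 - ‖u k‖ ^ 2) +
      M (‖u k‖ ^ 2 / (1 + ‖u‖ ^ 2 - ‖u k‖ ^ 2))) w).PosDef := by
  sorry

end Crest.Agent.R213.F
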