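import Crest.Agent.R213.F.HBasic

/-!
# Row 213, part F, F2: the relative potential as a function of `y` (helper690)
-/

set_option autoImplicit false

open Set MeasureTheory Filter Topology

noncomputable section

namespace Crest.Agent.R213.F

/-- chain rule for `u(t, X(t,y))` in the time variable -/
theorem hasDerivT_comp {s : Set ℝ} (hs : IsOpen s) {u X : ℝ → ℝ → ℝ} (hu : Sm s 1 u)
    {t y a b c : ℝ} (ht : t ∈ s)
    (hX : ∀ r ∈ s, X r y ∈ Icc (0 : ℝ) 1)
    (ha : HasDerivAt (fun r => u r (X t y)) a t)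
    (hb : HasDerivWithinAt (fun r => u t r) b (Icc 0 1) (X t y))
    (hc : HasDerivAt (fun r => X r y) c t) :
    HasDerivAt (fun r => u r (X r y)) (a + b * c) t := by
  have hx := hX t ht
  have hF := (hu.differentiableWithinAt ht hx).hasFDerivWithinAt
  set F' := fderivWithin ℝ (fun p : ℝ × ℝ => u p.1 p.2) (s ×ˢ Icc (0 : ℝ) 1) (t, X t y) with hF'
  have e1 : F' (1, 0) = a := (hasDerivAt_left hs hF ht hx).unique ha
  have e2 : F' (0, 1) = b :=
    (uniqueDiffOn_Icc zero_lt_one (X t y) hx).eq_deriv _ (hasDerivWithinAt_right hF ht) hb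
  have h1 : HasDerivWithinAt (fun r : ℝ => ((r, X r y) : ℝ × ℝ)) (1, c) s t :=
    (hasDerivWithinAt_id t _).prodMk hc.hasDerivWithinAt
  have h2 := HasFDerivWithinAt.comp_hasDerivWithinAt (f := fun r : ℝ => ((r, X r y) : ℝ × ℝ)) t
    hF h1 fun r hr => mk_mem_prod hr (hX r hr)
  have h3 := h2.hasDerivAt (hs.mem_nhds ht)
  refine h3.congr_deriv ?_
  have e3 : ((1, c) : ℝ × ℝ) = (1, 0) + c • ((0, 1) : ℝ × ℝ) := by
    ext <;> simp
  rw [e3, map_add, map_smul, e1, e2, smul_eq_mul, mul_comm c b]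

theorem HH_sm {T ε : ℝ} {w S f g X : ℝ → ℝ → ℝ} (hP : Pot T ε w S f g) (hX : Inv T ε w S g X) :
    Sm (Ioo (-ε) T) 1 (HH f g X) :=
  hP.sm_h0.comp2 Sm.fst hX.sm (fun _ ht _ _ => ht) fun t ht y hy => hX.mem t ht y hy

theorem HH_dt {T ε : ℝ} {w S f g X : ℝ → ℝ → ℝ} (hP : Pot T ε w S f g) (hX : Inv T ε w S g X)
    {t y : ℝ} (ht : t ∈ Ioo (-ε) T) (hy : y ∈ Icc (0 : ℝ) 1) :
    HasDerivAt (fun r => HH f g X r y) (S t (X t y) - 110) t := by
  have hx := hX.mem t ht y hy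
  have hD := (DD_pos g t hx).ne'
  have hPP := (hP.P_pos ht hx).ne'
  have h1 := hasDerivT_comp isOpen_Ioo hP.sm_h0 ht (fun r hr => hX.mem r hr y hy)
    (hP.hasDerivT_h0 ht hx) (hP.hasDerivX_h0 ht hx) (hX.dt t ht y hy)
  refine h1.congr_deriv ?_
  have e1 : -((Real.exp (g t (X t y)) - 1) * PP w t (X t y) / DD g t (X t y)) *
      (X t y * (1 - X t y) / PP w t (X t y) * dx 1 S t (X t y)) =
      -((Real.exp (g t (X t y)) - 1) * (X t y * (1 - X t y)) * dx 1 S t (X t y)) /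
        DD g t (X t y) := by
    field_simp
  rw [e1, add_assoc, ← add_div]
  have e2 : (X t y * Real.exp (g t (X t y)) * dx 1 S t (X t y) +
      -((Real.exp (g t (X t y)) - 1) * (X t y * (1 - X t y)) * dx 1 S t (X t y))) =
      X t y * dx 1 S t (X t y) * DD g t (X t y) := by
    unfold DD; ring
  rw [e2, mul_div_cancel_right₀ _ hD]
  ring

theorem HH_dy {T ε : ℝ} {w S f g X : ℝ → ℝ → ℝ} (hP : Pot T ε w S f g) (hX : Inv T ε w S g X)
    {t y : ℝ} (ht : t ∈ Ioo (-ε) T) (hy : y ∈ Icc (0 : ℝ) 1) :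
    HasDerivWithinAt (fun r => HH f g X t r)
      (-((Real.exp (g t (X t y)) - 1) * DD g t (X t y) / Real.exp (g t (X t y)))) (Icc 0 1) y := by
  have hx := hX.mem t ht y hy
  have hD := (DD_pos g t hx).ne'
  have hPP := (hP.P_pos ht hx).ne'
  have hE := (Real.exp_pos (g t (X t y))).ne'
  have h1 := HasDerivWithinAt.comp (h₂ := fun r => h0 f g t r) y (hP.hasDerivX_h0 ht hx)
    (hX.dy t ht y hy) fun r hr => hX.mem t ht r hr
  refine h1.congr_deriv ?_
  field_simp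

end Crest.Agent.R213.F
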