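import Crest.Agent.R213.J0

/-!
# Row 213, part F, F1a: smooth inverse function with parameter on the closed interval (helper380)
-/

set_option autoImplicit false

open Set MeasureTheory Filter Topology

noncomputable section

namespace Crest.Agent.R213.F

/-- the linear map `(a,b) ↦ (a, α a + β b)` as an equivalence (`β ≠ 0`) -/
def shear (α β : ℝ) (hβ : β ≠ 0) : (ℝ × ℝ) ≃L[ℝ] (ℝ × ℝ) :=
  ContinuousLinearEquiv.equivOfInverse
    ((ContinuousLinearMap.fst ℝ ℝ ℝ).prod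
      (α • ContinuousLinearMap.fst ℝ ℝ ℝ + β • ContinuousLinearMap.snd ℝ ℝ ℝ))
    ((ContinuousLinearMap.fst ℝ ℝ ℝ).prod
      (β⁻¹ • ContinuousLinearMap.snd ℝ ℝ ℝ - (α / β) • ContinuousLinearMap.fst ℝ ℝ ℝ))
    (by
      intro p
      ext
      · simp
      · simp only [ContinuousLinearMap.prod_apply, ContinuousLinearMap.coe_fst',
          add_apply, sub_apply,
          smul_apply, ContinuousLinearMap.coe_snd', smul_eq_mul]
        field_simp
        ring)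
    (by
      intro p
      ext
      · simp
      · simp only [ContinuousLinearMap.prod_apply, ContinuousLinearMap.coe_fst',
          add_apply, sub_apply,
          smul_apply, ContinuousLinearMap.coe_snd', smul_eq_mul]
        field_simp
        ring)

section

variable {s : Set ℝ} {Y : ℝ → ℝ → ℝ}

theorem inv_strictMono (hY : Sm s 1 Y) 
    (hpos : ∀ t ∈ s, ∀ x ∈ Icc (0 : ℝ) 1, 0 < dx 1 Y t x) {t : ℝ} (ht : t ∈ s) :
    StrictMonoOn (Y t) (Icc 0 1) := by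
  apply strictMonoOn_of_deriv_pos (convex_Icc 0 1) (hY.continuousOn_right ht)
  intro x hx
  rw [interior_Icc] at hx
  rw [← dx_eq_deriv hx]
  exact hpos t ht x (Ioo_subset_Icc_self hx)

theorem inv_surj (hY : Sm s 1 Y) (h0 : ∀ t ∈ s, Y t 0 = 0) (h1 : ∀ t ∈ s, Y t 1 = 1)
    {t : ℝ} (ht : t ∈ s) {y : ℝ} (hy : y ∈ Icc (0 : ℝ) 1) : ∃ x ∈ Icc (0 : ℝ) 1, Y t x = y := by
  have := intermediate_value_Icc (zero_le_one) (hY.continuousOn_right ht)
  rw [h0 t ht, h1 t ht] at this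
  exact this hy

/-- total derivative of a `Sm` function in terms of `dt`, `dx` -/
theorem Sm_total (hs : IsOpen s) (hY : Sm s 1 Y) {t x : ℝ} (ht : t ∈ s) (hx : x ∈ Icc (0 : ℝ) 1) :
    HasFDerivWithinAt (fun p : ℝ × ℝ => Y p.1 p.2)
      (dt Y t x • ContinuousLinearMap.fst ℝ ℝ ℝ + dx 1 Y t x • ContinuousLinearMap.snd ℝ ℝ ℝ)
      (s ×ˢ Icc 0 1) (t, x) := by
  have h := (hY.differentiableWithinAt ht hx).hasFDerivWithinAt
  have e : fderivWithin ℝ (fun p : ℝ × ℝ => Y p.1 p.2) (s ×ˢ Icc 0 1) (t, x) =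
      (dt Y t x • ContinuousLinearMap.fst ℝ ℝ ℝ + dx 1 Y t x • ContinuousLinearMap.snd ℝ ℝ ℝ) := by
    apply ContinuousLinearMap.ext
    intro v
    have hv : v = v.1 • ((1, 0) : ℝ × ℝ) + v.2 • ((0, 1) : ℝ × ℝ) := by
      ext <;> simp
    rw [hY.dt_eq hs ht hx, hY.dx_eq one_pos ht hx]
    conv_lhs => rw [hv]
    rw [map_add, map_smul, map_smul]
    simp [mul_comm]
  rw [← e]
  exact h

end

theorem exists_inverse {s : Set ℝ} (hs : IsOpen s) {Y : ℝ → ℝ → ℝ} (hY : Sm s 1 Y)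
    (h0 : ∀ t ∈ s, Y t 0 = 0) (h1 : ∀ t ∈ s, Y t 1 = 1)
    (hpos : ∀ t ∈ s, ∀ x ∈ Icc (0 : ℝ) 1, 0 < dx 1 Y t x) :
    ∃ X : ℝ → ℝ → ℝ, Sm s 1 X ∧
      (∀ t ∈ s, ∀ y ∈ Icc (0 : ℝ) 1, X t y ∈ Icc (0 : ℝ) 1 ∧ Y t (X t y) = y) ∧
      (∀ t ∈ s, ∀ x ∈ Icc (0 : ℝ) 1, X t (Y t x) = x) ∧
      (∀ t ∈ s, ∀ y ∈ Icc (0 : ℝ) 1,
        HasDerivWithinAt (fun r => X t r) (dx 1 Y t (X t y))⁻¹ (Icc 0 1) y) ∧
      (∀ t ∈ s, ∀ y ∈ Icc (0 : ℝ) 1,
        HasDerivAt (fun r => X r y) (- dt Y t (X t y) / dx 1 Y t (X t y)) t) := by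
  classical
  have hmono : ∀ t ∈ s, StrictMonoOn (Y t) (Icc 0 1) := fun t ht => inv_strictMono hY hpos ht
  set K : Set (ℝ × ℝ) := s ×ˢ Icc (0 : ℝ) 1 with hK
  have hKu : UniqueDiffOn ℝ K := uniqueDiffOn_dom hs one_pos
  -- the inverse
  set X : ℝ → ℝ → ℝ := fun t y => Function.invFunOn (Y t) (Icc 0 1) y with hXdef
  have hX : ∀ t ∈ s, ∀ y ∈ Icc (0 : ℝ) 1, X t y ∈ Icc (0 : ℝ) 1 ∧ Y t (X t y) = y := by
    intro t ht y hy
    have hex := inv_surj hY h0 h1 ht hy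
    exact ⟨Function.invFunOn_mem hex, Function.invFunOn_eq hex⟩
  have hYmem : ∀ t ∈ s, ∀ x ∈ Icc (0 : ℝ) 1, Y t x ∈ Icc (0 : ℝ) 1 := by
    intro t ht x hx
    have a := (hmono t ht).monotoneOn (left_mem_Icc.2 zero_le_one) hx hx.1
    have b := (hmono t ht).monotoneOn hx (right_mem_Icc.2 zero_le_one) hx.2
    rw [h0 t ht] at a
    rw [h1 t ht] at b
    exact ⟨a, b⟩
  have hXY : ∀ t ∈ s, ∀ x ∈ Icc (0 : ℝ) 1, X t (Y t x) = x := by
    intro t ht x hx
    have h := hX t ht (Y t x) (hYmem t ht x hx)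
    exact (hmono t ht).injOn h.1 hx h.2
  -- joint continuity
  have hcont : ContinuousOn (fun p : ℝ × ℝ => X p.1 p.2) K := by
    rintro ⟨t0, y0⟩ ⟨ht0, hy0⟩
    simp only at ht0 hy0
    have hx0 := hX t0 ht0 y0 hy0
    have hYc : ∀ a ∈ Icc (0 : ℝ) 1, ContinuousWithinAt (fun p : ℝ × ℝ => Y p.1 a) K (t0, y0) := by
      intro a ha
      have h2 : ContinuousOn (fun t => Y t a) s := hY.continuousOn_left ha
      exact ContinuousWithinAt.comp (f := fun p : ℝ × ℝ => p.1) (x := (t0, y0)) (t := s)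
        (g := fun t => Y t a) (h2 t0 ht0) continuous_fst.continuousWithinAt (fun p hp => hp.1)
    refine tendsto_order.2 ⟨fun a ha => ?_, fun a ha => ?_⟩
    · by_cases ha0 : a < 0
      · filter_upwards [self_mem_nhdsWithin] with p hp
        exact lt_of_lt_of_le ha0 (hX p.1 hp.1 p.2 hp.2).1.1
      · push Not at ha0
        have haI : a ∈ Icc (0 : ℝ) 1 := ⟨ha0, ha.le.trans hx0.1.2⟩
        have hlt : Y t0 a < y0 := by
          have := hmono t0 ht0 haI hx0.1 ha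
          rwa [hx0.2] at this
        have hev : ∀ᶠ p : ℝ × ℝ in 𝓝[K] (t0, y0), Y p.1 a < p.2 :=
          (hYc a haI).eventually_lt continuous_snd.continuousWithinAt hlt
        filter_upwards [hev, self_mem_nhdsWithin] with p hp hpK
        by_contra hcon
        push Not at hcon
        have hp' := hX p.1 hpK.1 p.2 hpK.2
        have := (hmono p.1 hpK.1).monotoneOn hp'.1 haI hcon
        rw [hp'.2] at this
        exact absurd hp (not_lt.2 this)
    · by_cases ha1 : 1 < a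
      · filter_upwards [self_mem_nhdsWithin] with p hp
        exact lt_of_le_of_lt (hX p.1 hp.1 p.2 hp.2).1.2 ha1
      · push Not at ha1
        have haI : a ∈ Icc (0 : ℝ) 1 := ⟨hx0.1.1.trans ha.le, ha1⟩
        have hlt : y0 < Y t0 a := by
          have := hmono t0 ht0 hx0.1 haI ha
          rwa [hx0.2] at this
        have hev : ∀ᶠ p : ℝ × ℝ in 𝓝[K] (t0, y0), p.2 < Y p.1 a :=
          continuous_snd.continuousWithinAt.eventually_lt (hYc a haI) hlt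
        filter_upwards [hev, self_mem_nhdsWithin] with p hp hpK
        by_contra hcon
        push Not at hcon
        have hp' := hX p.1 hpK.1 p.2 hpK.2
        have := (hmono p.1 hpK.1).monotoneOn haI hp'.1 hcon
        rw [hp'.2] at this
        exact absurd hp (not_lt.2 this)
  -- total derivative
  have hder : ∀ t ∈ s, ∀ y ∈ Icc (0 : ℝ) 1,
      HasFDerivWithinAt (fun p : ℝ × ℝ => X p.1 p.2)
        ((dx 1 Y t (X t y))⁻¹ • ContinuousLinearMap.snd ℝ ℝ ℝ -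
          (dt Y t (X t y) / dx 1 Y t (X t y)) • ContinuousLinearMap.fst ℝ ℝ ℝ) K (t, y) := by
    intro t ht y hy
    have hx := hX t ht y hy
    have hne : dx 1 Y t (X t y) ≠ 0 := (hpos t ht _ hx.1).ne'
    have hF : HasFDerivWithinAt (fun p : ℝ × ℝ => (p.1, Y p.1 p.2))
        ((shear (dt Y t (X t y)) (dx 1 Y t (X t y)) hne : (ℝ × ℝ) ≃L[ℝ] (ℝ × ℝ)) :
          ℝ × ℝ →L[ℝ] ℝ × ℝ) K (t, X t y) := by
      exact (hasFDerivWithinAt_fst).prodMk (Sm_total hs hY ht hx.1)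
    have hG : HasFDerivWithinAt (fun p : ℝ × ℝ => (p.1, X p.1 p.2))
        (((shear (dt Y t (X t y)) (dx 1 Y t (X t y)) hne).symm : (ℝ × ℝ) ≃L[ℝ] (ℝ × ℝ)) :
          ℝ × ℝ →L[ℝ] ℝ × ℝ) K (t, y) := by
      have hty : ((t, y) : ℝ × ℝ) ∈ K := ⟨ht, hy⟩
      have hT : Tendsto (fun p : ℝ × ℝ => (p.1, X p.1 p.2)) (𝓝[K] (t, y)) (𝓝[K] (t, X t y)) := by
        apply tendsto_nhdsWithin_of_tendsto_nhds_of_eventually_within
        · exact (continuous_fst.continuousWithinAt).prodMk (hcont (t, y) hty)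
        · filter_upwards [self_mem_nhdsWithin] with p hp
          exact ⟨hp.1, (hX p.1 hp.1 p.2 hp.2).1⟩
      have hev : ∀ᶠ p : ℝ × ℝ in 𝓝[K] (t, y), (fun p : ℝ × ℝ => (p.1, Y p.1 p.2))
          ((fun p : ℝ × ℝ => (p.1, X p.1 p.2)) p) = p := by
        filter_upwards [self_mem_nhdsWithin] with p hp
        show (p.1, Y p.1 (X p.1 p.2)) = p
        rw [(hX p.1 hp.1 p.2 hp.2).2]
      exact HasFDerivWithinAt.of_local_left_inverse (g := fun p : ℝ × ℝ => (p.1, X p.1 p.2))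
        (f := fun p : ℝ × ℝ => (p.1, Y p.1 p.2)) (s := K) (t := K) (a := (t, y)) hT hF hty hev
    have h2 := (hasFDerivAt_snd (𝕜 := ℝ) (E := ℝ) (F := ℝ)
      (p := (t, X t y))).comp_hasFDerivWithinAt (t, y) hG
    exact h2
  -- bootstrapping
  have hsm : ∀ n : ℕ, ContDiffOn ℝ n (fun p : ℝ × ℝ => X p.1 p.2) K := by
    intro n
    induction n with
    | zero => simpa [contDiffOn_zero] using hcont
    | succ n ih =>
      have hG : ContDiffOn ℝ n (fun p : ℝ × ℝ => (p.1, X p.1 p.2)) K :=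
        contDiff_fst.contDiffOn.prodMk ih
      have hGm : MapsTo (fun p : ℝ × ℝ => (p.1, X p.1 p.2)) K K :=
        fun p hp => ⟨hp.1, (hX p.1 hp.1 p.2 hp.2).1⟩
      have hdx : ContDiffOn ℝ n (fun p : ℝ × ℝ => dx 1 Y p.1 (X p.1 p.2)) K :=
        ContDiffOn.comp (g := fun p : ℝ × ℝ => dx 1 Y p.1 p.2) (t := K)
          ((hY.dx hs one_pos).of_le (by exact_mod_cast le_top)) hG hGm
      have hdt : ContDiffOn ℝ n (fun p : ℝ × ℝ => dt Y p.1 (X p.1 p.2)) K :=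
        ContDiffOn.comp (g := fun p : ℝ × ℝ => dt Y p.1 p.2) (t := K)
          ((hY.dt hs one_pos).of_le (by exact_mod_cast le_top)) hG hGm
      have hne : ∀ p ∈ K, dx 1 Y p.1 (X p.1 p.2) ≠ 0 := fun p hp =>
        (hpos p.1 hp.1 _ (hX p.1 hp.1 p.2 hp.2).1).ne'
      rw [Nat.cast_add, Nat.cast_one]
      rw [contDiffOn_succ_iff_hasFDerivWithinAt_of_uniqueDiffOn hKu]
      refine ⟨by simp, fun p => (dx 1 Y p.1 (X p.1 p.2))⁻¹ • ContinuousLinearMap.snd ℝ ℝ ℝ -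
          (dt Y p.1 (X p.1 p.2) / dx 1 Y p.1 (X p.1 p.2)) • ContinuousLinearMap.fst ℝ ℝ ℝ, ?_,
        fun p hp => hder p.1 hp.1 p.2 hp.2⟩
      exact ((hdx.inv hne).smul contDiffOn_const).sub ((hdt.div hdx hne).smul contDiffOn_const)
  have hXsm : Sm s 1 X := contDiffOn_infty.2 hsm
  refine ⟨X, hXsm, hX, hXY, ?_, ?_⟩
  · intro t ht y hy
    have h2 : HasDerivWithinAt (fun y : ℝ => ((t, y) : ℝ × ℝ)) (0, 1) (Icc 0 1) y :=
      (hasDerivWithinAt_const y _ t).prodMk (hasDerivWithinAt_id y _)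
    have h3 := HasFDerivWithinAt.comp_hasDerivWithinAt (f := fun y : ℝ => ((t, y) : ℝ × ℝ)) y
      (hder t ht y hy) h2 fun z hz => mk_mem_prod ht hz
    have e : (dx 1 Y t (X t y))⁻¹ =
        ((dx 1 Y t (X t y))⁻¹ • ContinuousLinearMap.snd ℝ ℝ ℝ -
          (dt Y t (X t y) / dx 1 Y t (X t y)) • ContinuousLinearMap.fst ℝ ℝ ℝ) ((0, 1) : ℝ × ℝ) := by
      simp
    rw [e]
    exact h3
  · intro t ht y hy
    have h2 : HasDerivWithinAt (fun r : ℝ => ((r, y) : ℝ × ℝ)) (1, 0) s t :=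
      (hasDerivWithinAt_id t _).prodMk (hasDerivWithinAt_const t _ y)
    have h3 := HasFDerivWithinAt.comp_hasDerivWithinAt (f := fun r : ℝ => ((r, y) : ℝ × ℝ)) t
      (hder t ht y hy) h2 fun z hz => mk_mem_prod hz hy
    have h4 := h3.hasDerivAt (hs.mem_nhds ht)
    have e : - dt Y t (X t y) / dx 1 Y t (X t y) =
        ((dx 1 Y t (X t y))⁻¹ • ContinuousLinearMap.snd ℝ ℝ ℝ -
          (dt Y t (X t y) / dx 1 Y t (X t y)) • ContinuousLinearMap.fst ℝ ℝ ℝ) ((1, 0) : ℝ × ℝ) := by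
      simp [neg_div]
    rw [e]
    exact h4

end Crest.Agent.R213.F
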