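import Crest.Agent.R213.F.HBasic
import Crest.Agent.R213.F.Inverse

/-!
# Row 213, part F, F1b: the inverse of `YY g` (helper690)
-/

set_option autoImplicit false

open Set MeasureTheory Filter Topology

noncomputable section

namespace Crest.Agent.R213.F

/-- `exists_inv` from the general statement `exists_inverse` (F1a) -/
theorem exists_inv_of
    (hinv : ∀ {s : Set ℝ}, IsOpen s → ∀ {Y : ℝ → ℝ → ℝ}, Sm s 1 Y →
      (∀ t ∈ s, Y t 0 = 0) → (∀ t ∈ s, Y t 1 = 1) →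
      (∀ t ∈ s, ∀ x ∈ Icc (0 : ℝ) 1, 0 < dx 1 Y t x) →
      ∃ X : ℝ → ℝ → ℝ, Sm s 1 X ∧
        (∀ t ∈ s, ∀ y ∈ Icc (0 : ℝ) 1, X t y ∈ Icc (0 : ℝ) 1 ∧ Y t (X t y) = y) ∧
        (∀ t ∈ s, ∀ x ∈ Icc (0 : ℝ) 1, X t (Y t x) = x) ∧
        (∀ t ∈ s, ∀ y ∈ Icc (0 : ℝ) 1,
          HasDerivWithinAt (fun r => X t r) (dx 1 Y t (X t y))⁻¹ (Icc 0 1) y) ∧
        (∀ t ∈ s, ∀ y ∈ Icc (0 : ℝ) 1,
          HasDerivAt (fun r => X r y) (- dt Y t (X t y) / dx 1 Y t (X t y)) t))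
    {T ε : ℝ} {w S f g : ℝ → ℝ → ℝ} (hP : Pot T ε w S f g) :
    ∃ X : ℝ → ℝ → ℝ, Inv T ε w S g X := by
  have hdx : ∀ t ∈ Ioo (-ε) T, ∀ x ∈ Icc (0 : ℝ) 1,
      dx 1 (YY g) t x = Real.exp (g t x) * PP w t x / DD g t x ^ 2 := fun t ht x hx =>
    dx_eq_of_hasDerivWithinAt zero_lt_one hx (hP.hasDerivX_YY ht hx)
  have hdt : ∀ t ∈ Ioo (-ε) T, ∀ x ∈ Icc (0 : ℝ) 1,
      dt (YY g) t x = -(x * (1 - x) * Real.exp (g t x) * dx 1 S t x) / DD g t x ^ 2 :=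
    fun t ht x hx => (hP.hasDerivT_YY ht hx).deriv
  obtain ⟨X, h1, h2, h3, h4, h5⟩ := hinv (s := Ioo (-ε) T) isOpen_Ioo hP.sm_YY
    (fun t _ => YY_zero g t) (fun t _ => YY_one g t) (fun t ht x hx => by
      rw [hdx t ht x hx]
      exact div_pos (mul_pos (Real.exp_pos _) (hP.P_pos ht hx)) (pow_pos (DD_pos g t hx) 2))
  have m0 : (0 : ℝ) ∈ Icc (0 : ℝ) 1 := ⟨le_rfl, zero_le_one⟩
  have m1 : (1 : ℝ) ∈ Icc (0 : ℝ) 1 := ⟨zero_le_one, le_rfl⟩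
  refine ⟨X, ?_⟩
  constructor
  · exact h1
  · exact fun t ht y hy => (h2 t ht y hy).1
  · exact fun t ht y hy => (h2 t ht y hy).2
  · exact h3
  · intro t ht
    have := h3 t ht 0 m0
    rwa [YY_zero] at this
  · intro t ht
    have := h3 t ht 1 m1
    rwa [YY_one] at this
  · intro t ht y hy
    have hy' : y ∈ Icc (0 : ℝ) 1 := ⟨hy.1.le, hy.2⟩
    have h6 := h2 t ht y hy'
    refine lt_of_le_of_ne h6.1.1 fun h => ?_
    have h7 := h6.2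
    rw [← h, YY_zero] at h7
    exact hy.1.ne h7
  · intro t ht y hy
    have hy' : y ∈ Icc (0 : ℝ) 1 := ⟨hy.1, hy.2.le⟩
    have h6 := h2 t ht y hy'
    refine lt_of_le_of_ne h6.1.2 fun h => ?_
    have h7 := h6.2
    rw [h, YY_one] at h7
    exact hy.2.ne' h7
  · intro t ht y hy
    have h6 := (h2 t ht y hy).1
    refine (h4 t ht y hy).congr_deriv ?_
    rw [hdx t ht _ h6, inv_div]
  · intro t ht y hy
    have h6 := (h2 t ht y hy).1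
    have hD := (DD_pos g t h6).ne'
    have hPP := (hP.P_pos ht h6).ne'
    have hE := (Real.exp_pos (g t (X t y))).ne'
    refine (h5 t ht y hy).congr_deriv ?_
    rw [hdx t ht _ h6, hdt t ht _ h6]
    field_simp

theorem exists_inv {T ε : ℝ} {w S f g : ℝ → ℝ → ℝ} (hP : Pot T ε w S f g) :
    ∃ X : ℝ → ℝ → ℝ, Inv T ε w S g X :=
  exists_inv_of (fun hs _ hY h0 h1 hpos => exists_inverse hs hY h0 h1 hpos) hP

end Crest.Agent.R213.F
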