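import Crest.Agent.R213.F.HBasic

/-!
# Row 213, part F, F4a: one-dimensional facts in both charts (helper191)
-/

set_option autoImplicit false

open Set MeasureTheory Filter Topology

noncomputable section

namespace Crest.Agent.R213.F

variable {T ε : ℝ} {w S f g X : ℝ → ℝ → ℝ} {t ρ q : ℝ}

/-- same as `HH_dy` (own copy, so that this file only needs `HBasic`) -/
private theorem HH_dy' (hP : Pot T ε w S f g) (hX : Inv T ε w S g X)
    {t y : ℝ} (ht : t ∈ Ioo (-ε) T) (hy : y ∈ Icc (0 : ℝ) 1) :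
    HasDerivWithinAt (fun r => HH f g X t r)
      (-((Real.exp (g t (X t y)) - 1) * DD g t (X t y) / Real.exp (g t (X t y)))) (Icc 0 1) y := by
  have hx := hX.mem t ht y hy
  have hD := (DD_pos g t hx).ne'
  have hPP := (hP.P_pos ht hx).ne'
  have hE := (Real.exp_pos (g t (X t y))).ne'
  have h1 := HasDerivWithinAt.comp (h₂ := fun r => h0 f g t r) y (hP.hasDerivX_h0 ht hx)
    (hX.dy t ht y hy) fun r hr => hX.mem t ht r hr
  refine h1.congr_deriv ?_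
  field_simp

/-! ### chart `U₀` -/

theorem yr_mem (hρ : 0 ≤ ρ) : ρ / (1 + ρ) ∈ Ico (0 : ℝ) 1 := by
  have h : (0 : ℝ) < 1 + ρ := by linarith
  exact ⟨div_nonneg hρ h.le, (div_lt_one h).2 (by linarith)⟩

theorem yr_mem' (hρ : 0 ≤ ρ) : ρ / (1 + ρ) ∈ Icc (0 : ℝ) 1 :=
  Ico_subset_Icc_self (yr_mem hρ)

theorem xr_mem (hX : Inv T ε w S g X) (ht : t ∈ Ioo (-ε) T) (hρ : 0 ≤ ρ) :
    xr X t ρ ∈ Icc (0 : ℝ) 1 := hX.mem t ht _ (yr_mem' hρ)

theorem xr_lt_one (hX : Inv T ε w S g X) (ht : t ∈ Ioo (-ε) T) (hρ : 0 ≤ ρ) :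
    xr X t ρ < 1 := hX.lt_one t ht _ (yr_mem hρ)

/-- `ρ (1-x) = x e^g` -/
theorem rho_mul (hX : Inv T ε w S g X) (ht : t ∈ Ioo (-ε) T) (hρ : 0 ≤ ρ) :
    ρ * (1 - xr X t ρ) = xr X t ρ * Real.exp (g t (xr X t ρ)) := by
  have h1 := hX.YX t ht _ (yr_mem' hρ)
  change YY g t (xr X t ρ) = ρ / (1 + ρ) at h1
  have hD := (DD_pos g t (xr_mem hX ht hρ)).ne'
  have h2 : (1 + ρ) ≠ 0 := by positivity
  unfold YY at h1
  rw [div_eq_div_iff hD h2] at h1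
  unfold DD at h1
  linarith

theorem hasDeriv_yr (hρ : 0 ≤ ρ) :
    HasDerivWithinAt (fun r : ℝ => r / (1 + r)) (1 / (1 + ρ) ^ 2) (Ici 0) ρ := by
  have h : (1 + ρ) ≠ 0 := by positivity
  have h1 := (hasDerivWithinAt_id ρ (Ici (0 : ℝ))).div
    ((hasDerivWithinAt_id ρ (Ici (0 : ℝ))).const_add 1) h
  refine h1.congr_deriv ?_
  simp only [id]
  congr 1
  ring

theorem one_add_rho (hX : Inv T ε w S g X) (ht : t ∈ Ioo (-ε) T) (hρ : 0 ≤ ρ) :
    1 / (1 + ρ) = (1 - xr X t ρ) / DD g t (xr X t ρ) := by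
  have h1 := rho_mul hX ht hρ
  have hD := (DD_pos g t (xr_mem hX ht hρ)).ne'
  have h2 : (1 + ρ) ≠ 0 := by positivity
  rw [div_eq_div_iff h2 hD]
  unfold DD
  linarith

theorem hasDeriv_xr {T ε : ℝ} {w S f g X : ℝ → ℝ → ℝ} (hP : Pot T ε w S f g)
    (hX : Inv T ε w S g X) {t ρ : ℝ} (ht : t ∈ Ioo (-ε) T) (hρ : 0 ≤ ρ) :
    HasDerivWithinAt (xr X t)
      ((1 - xr X t ρ) ^ 2 * Real.exp (-(g t (xr X t ρ))) / PP w t (xr X t ρ)) (Ici 0) ρ := by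
  have hx := xr_mem hX ht hρ
  have hD := (DD_pos g t hx).ne'
  have hPP := (hP.P_pos ht hx).ne'
  have hE := (Real.exp_pos (g t (xr X t ρ))).ne'
  have h1 := HasDerivWithinAt.comp (h₂ := fun r => X t r) ρ (hX.dy t ht _ (yr_mem' hρ))
    (hasDeriv_yr hρ) fun r hr => yr_mem' hr
  refine h1.congr_deriv ?_
  change DD g t (xr X t ρ) ^ 2 / (Real.exp (g t (xr X t ρ)) * PP w t (xr X t ρ)) *
    (1 / (1 + ρ) ^ 2) = _
  have h2 : 1 / (1 + ρ) ^ 2 = ((1 - xr X t ρ) / DD g t (xr X t ρ)) ^ 2 := by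
    rw [← one_add_rho hX ht hρ, div_pow, one_pow]
  rw [h2, Real.exp_neg]
  field_simp

theorem hasDeriv_K0 {T ε : ℝ} {w S f g X : ℝ → ℝ → ℝ} (hP : Pot T ε w S f g)
    (hX : Inv T ε w S g X) {t ρ : ℝ} (ht : t ∈ Ioo (-ε) T) (hρ : 0 ≤ ρ) :
    HasDerivWithinAt (K0 f g X t) (K1 g X t ρ) (Ici 0) ρ := by
  have hx := xr_mem hX ht hρ
  have hD := (DD_pos g t hx).ne'
  have hE := (Real.exp_pos (g t (xr X t ρ))).ne'
  have hr : (1 + ρ) ≠ 0 := by positivity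
  have h1 := HasDerivWithinAt.comp (h₂ := fun r => HH f g X t r) ρ
    (HH_dy' hP hX ht (yr_mem' hρ)) (hasDeriv_yr hρ) fun r hr => yr_mem' hr
  have h0 : HasDerivWithinAt (fun r : ℝ => Real.log (1 + r)) (1 / (1 + ρ)) (Ici 0) ρ :=
    ((hasDerivWithinAt_id ρ (Ici (0 : ℝ))).const_add 1).log hr
  refine (h0.add h1).congr_deriv ?_
  change 1 / (1 + ρ) + -((Real.exp (g t (xr X t ρ)) - 1) * DD g t (xr X t ρ) /
    Real.exp (g t (xr X t ρ))) * (1 / (1 + ρ) ^ 2) =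
      (1 - xr X t ρ) * Real.exp (-(g t (xr X t ρ)))
  have h2 : 1 / (1 + ρ) ^ 2 = ((1 - xr X t ρ) / DD g t (xr X t ρ)) ^ 2 := by
    rw [← one_add_rho hX ht hρ, div_pow, one_pow]
  have h3 : DD g t (xr X t ρ) = 1 - xr X t ρ + xr X t ρ * Real.exp (g t (xr X t ρ)) := rfl
  rw [h2, one_add_rho hX ht hρ, Real.exp_neg]
  field_simp
  rw [h3]
  ring

theorem hasDeriv_K1 {T ε : ℝ} {w S f g X : ℝ → ℝ → ℝ} (hP : Pot T ε w S f g)
    (hX : Inv T ε w S g X) {t ρ : ℝ} (ht : t ∈ Ioo (-ε) T) (hρ : 0 ≤ ρ) :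
    HasDerivWithinAt (K1 g X t) (K2 w g X t ρ) (Ici 0) ρ := by
  have hx := xr_mem hX ht hρ
  have h1 := hasDeriv_xr hP hX ht hρ
  have h2 := HasDerivWithinAt.comp (h₂ := fun r => g t r) ρ (hP.gx t ht _ hx) h1
    fun r hr => xr_mem hX ht hr
  have h3 := (h1.const_sub 1).mul h2.neg.exp
  refine h3.congr_deriv ?_
  simp only [Pi.neg_apply, Function.comp_apply]
  unfold K2
  ring

theorem K1_pos {T ε : ℝ} {w S f g X : ℝ → ℝ → ℝ} (_hP : Pot T ε w S f g)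
    (hX : Inv T ε w S g X) {t ρ : ℝ} (ht : t ∈ Ioo (-ε) T) (hρ : 0 ≤ ρ) : 0 < K1 g X t ρ :=
  mul_pos (sub_pos.2 (xr_lt_one hX ht hρ)) (Real.exp_pos _)

/-- `ρ = x e^g/(1-x)` gives `K' + ρ K'' = (1-x)² e^{-g}/P` -/
theorem K1_add {T ε : ℝ} {w S f g X : ℝ → ℝ → ℝ} (hP : Pot T ε w S f g)
    (hX : Inv T ε w S g X) {t ρ : ℝ} (ht : t ∈ Ioo (-ε) T) (hρ : 0 ≤ ρ) :
    K1 g X t ρ + ρ * K2 w g X t ρ =
      (1 - xr X t ρ) ^ 2 * Real.exp (-(g t (xr X t ρ))) / PP w t (xr X t ρ) ∧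
    0 < K1 g X t ρ + ρ * K2 w g X t ρ := by
  have hx := xr_mem hX ht hρ
  have hPP := hP.P_pos ht hx
  have hE := (Real.exp_pos (g t (xr X t ρ))).ne'
  have h1 : K1 g X t ρ + ρ * K2 w g X t ρ =
      (1 - xr X t ρ) ^ 2 * Real.exp (-(g t (xr X t ρ))) / PP w t (xr X t ρ) := by
    have h2 : ρ * K2 w g X t ρ = -((ρ * (1 - xr X t ρ)) * ((1 - xr X t ρ) *
        (1 + (1 - xr X t ρ) * w t (xr X t ρ)) *
        Real.exp (-(g t (xr X t ρ))) ^ 2 / PP w t (xr X t ρ))) := by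
      unfold K2; ring
    have h3 : PP w t (xr X t ρ) =
      1 + xr X t ρ * (1 - xr X t ρ) * w t (xr X t ρ) := rfl
    rw [h2, rho_mul hX ht hρ]
    unfold K1
    rw [Real.exp_neg]
    have hPP' := hPP.ne'
    field_simp
    rw [h3]
    ring
  refine ⟨h1, ?_⟩
  rw [h1]
  exact div_pos (mul_pos (pow_pos (sub_pos.2 (xr_lt_one hX ht hρ)) 2) (Real.exp_pos _)) hPP

/-! ### chart `U_k` -/

theorem yq_mem (hq : 0 ≤ q) : 1 / (1 + q) ∈ Ioc (0 : ℝ) 1 := by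
  have h : (0 : ℝ) < 1 + q := by linarith
  exact ⟨by positivity, (div_le_one h).2 (by linarith)⟩

theorem yq_mem' (hq : 0 ≤ q) : 1 / (1 + q) ∈ Icc (0 : ℝ) 1 :=
  Ioc_subset_Icc_self (yq_mem hq)

theorem xq_mem (hX : Inv T ε w S g X) (ht : t ∈ Ioo (-ε) T) (hq : 0 ≤ q) :
    xq X t q ∈ Icc (0 : ℝ) 1 := hX.mem t ht _ (yq_mem' hq)

theorem xq_pos (hX : Inv T ε w S g X) (ht : t ∈ Ioo (-ε) T) (hq : 0 ≤ q) :
    0 < xq X t q := hX.pos t ht _ (yq_mem hq)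

/-- `q x e^g = 1 - x` -/
theorem q_mul (hX : Inv T ε w S g X) (ht : t ∈ Ioo (-ε) T) (hq : 0 ≤ q) :
    q * (xq X t q * Real.exp (g t (xq X t q))) = 1 - xq X t q := by
  have h1 := hX.YX t ht _ (yq_mem' hq)
  change YY g t (xq X t q) = 1 / (1 + q) at h1
  have hD := (DD_pos g t (xq_mem hX ht hq)).ne'
  have h2 : (1 + q) ≠ 0 := by positivity
  unfold YY at h1
  rw [div_eq_div_iff hD h2] at h1
  unfold DD at h1
  linarith

theorem hasDeriv_yq (hq : 0 ≤ q) :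
    HasDerivWithinAt (fun r : ℝ => 1 / (1 + r)) (-(1 / (1 + q) ^ 2)) (Ici 0) q := by
  have h : (1 + q) ≠ 0 := by positivity
  have h1 := (hasDerivWithinAt_const q (Ici (0 : ℝ)) (1 : ℝ)).div
    ((hasDerivWithinAt_id q (Ici (0 : ℝ))).const_add 1) h
  refine h1.congr_deriv ?_
  simp only [id]
  rw [← neg_div]
  congr 1
  ring

theorem one_add_q (hX : Inv T ε w S g X) (ht : t ∈ Ioo (-ε) T) (hq : 0 ≤ q) :
    1 / (1 + q) = xq X t q * Real.exp (g t (xq X t q)) / DD g t (xq X t q) := by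
  have h1 := hX.YX t ht _ (yq_mem' hq)
  exact h1.symm

theorem hasDeriv_xq {T ε : ℝ} {w S f g X : ℝ → ℝ → ℝ} (hP : Pot T ε w S f g)
    (hX : Inv T ε w S g X) {t q : ℝ} (ht : t ∈ Ioo (-ε) T) (hq : 0 ≤ q) :
    HasDerivWithinAt (xq X t)
      (-(xq X t q ^ 2 * Real.exp (g t (xq X t q)) / PP w t (xq X t q))) (Ici 0) q := by
  have hx := xq_mem hX ht hq
  have hD := (DD_pos g t hx).ne'
  have hPP := (hP.P_pos ht hx).ne'
  have hE := (Real.exp_pos (g t (xq X t q))).ne'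
  have h1 := HasDerivWithinAt.comp (h₂ := fun r => X t r) q (hX.dy t ht _ (yq_mem' hq))
    (hasDeriv_yq hq) fun r hr => yq_mem' hr
  refine h1.congr_deriv ?_
  change DD g t (xq X t q) ^ 2 / (Real.exp (g t (xq X t q)) * PP w t (xq X t q)) *
    (-(1 / (1 + q) ^ 2)) = _
  have h2 : 1 / (1 + q) ^ 2 =
      (xq X t q * Real.exp (g t (xq X t q)) / DD g t (xq X t q)) ^ 2 := by
    rw [← one_add_q hX ht hq, div_pow, one_pow]
  rw [h2]
  field_simp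

theorem hasDeriv_M0 {T ε : ℝ} {w S f g X : ℝ → ℝ → ℝ} (hP : Pot T ε w S f g)
    (hX : Inv T ε w S g X) {t q : ℝ} (ht : t ∈ Ioo (-ε) T) (hq : 0 ≤ q) :
    HasDerivWithinAt (M0 f g X t) (M1 g X t q) (Ici 0) q := by
  have hx := xq_mem hX ht hq
  have hD := (DD_pos g t hx).ne'
  have hE := (Real.exp_pos (g t (xq X t q))).ne'
  have hr : (1 + q) ≠ 0 := by positivity
  have h1 := HasDerivWithinAt.comp (h₂ := fun r => HH f g X t r) q
    (HH_dy' hP hX ht (yq_mem' hq)) (hasDeriv_yq hq) fun r hr => yq_mem' hr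
  have h0 : HasDerivWithinAt (fun r : ℝ => Real.log (1 + r)) (1 / (1 + q)) (Ici 0) q :=
    ((hasDerivWithinAt_id q (Ici (0 : ℝ))).const_add 1).log hr
  refine (h0.add h1).congr_deriv ?_
  change 1 / (1 + q) + -((Real.exp (g t (xq X t q)) - 1) * DD g t (xq X t q) /
    Real.exp (g t (xq X t q))) * (-(1 / (1 + q) ^ 2)) =
      xq X t q * Real.exp (g t (xq X t q))
  have h2 : 1 / (1 + q) ^ 2 =
      (xq X t q * Real.exp (g t (xq X t q)) / DD g t (xq X t q)) ^ 2 := by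
    rw [← one_add_q hX ht hq, div_pow, one_pow]
  have h3 : DD g t (xq X t q) = 1 - xq X t q + xq X t q * Real.exp (g t (xq X t q)) := rfl
  rw [h2, one_add_q hX ht hq]
  field_simp
  rw [h3]
  ring

theorem hasDeriv_M1 {T ε : ℝ} {w S f g X : ℝ → ℝ → ℝ} (hP : Pot T ε w S f g)
    (hX : Inv T ε w S g X) {t q : ℝ} (ht : t ∈ Ioo (-ε) T) (hq : 0 ≤ q) :
    HasDerivWithinAt (M1 g X t) (M2 w g X t q) (Ici 0) q := by
  have hx := xq_mem hX ht hq
  have h1 := hasDeriv_xq hP hX ht hq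
  have h2 := HasDerivWithinAt.comp (h₂ := fun r => g t r) q (hP.gx t ht _ hx) h1
    fun r hr => xq_mem hX ht hr
  have h3 := h1.mul h2.exp
  refine h3.congr_deriv ?_
  simp only [Function.comp_apply]
  unfold M2
  ring

/-- `q = (1-x) e^{-g}/x`: `1 - q M' = x > 0`, `M' + q M'' = x² e^g / P > 0` -/
theorem M_pos {T ε : ℝ} {w S f g X : ℝ → ℝ → ℝ} (hP : Pot T ε w S f g)
    (hX : Inv T ε w S g X) {t q : ℝ} (ht : t ∈ Ioo (-ε) T) (hq : 0 ≤ q) :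
    0 < 1 - q * M1 g X t q ∧ 0 < M1 g X t q + q * M2 w g X t q := by
  have hx := xq_mem hX ht hq
  have hx0 := xq_pos hX ht hq
  have hPP := hP.P_pos ht hx
  have h1 := q_mul hX ht hq
  refine ⟨?_, ?_⟩
  · unfold M1
    rw [h1]
    linarith
  · have h2 : q * M2 w g X t q = -((q * (xq X t q * Real.exp (g t (xq X t q)))) *
        (xq X t q * Real.exp (g t (xq X t q)) * (1 + xq X t q * w t (xq X t q)) /
          PP w t (xq X t q))) := by
      unfold M2; ring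
    have h3 : PP w t (xq X t q) =
      1 + xq X t q * (1 - xq X t q) * w t (xq X t q) := rfl
    have h4 : M1 g X t q + q * M2 w g X t q =
        xq X t q ^ 2 * Real.exp (g t (xq X t q)) / PP w t (xq X t q) := by
      rw [h2, h1]
      unfold M1
      have hPP' := hPP.ne'
      field_simp
      rw [h3]
      ring
    rw [h4]
    exact div_pos (mul_pos (pow_pos hx0 2) (Real.exp_pos _)) hPP

end Crest.Agent.R213.F
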