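import Crest.Prelude.Def_ProjKahler

/-!
# Row 213, part F, file F3: radial potentials in `ℂⁿ`
-/

set_option autoImplicit false

open Set MeasureTheory Filter Topology
open Crest.GeometryTopology.ProjKahler
open scoped ComplexOrder

noncomputable section

namespace Crest.Agent.R213.F

namespace Rad

/-- coordinate as a real-linear map -/
def cd {n : ℕ} (i : Fin n) : V n →L[ℝ] ℂ :=
  (EuclideanSpace.proj i : EuclideanSpace ℂ (Fin n) →L[ℂ] ℂ).restrictScalars ℝ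

@[simp] theorem cd_apply {n : ℕ} (i : Fin n) (z : V n) : cd i z = z i := rfl

/-- the derivative of `‖u‖²` -/
def dN {n : ℕ} (z : V n) : V n →L[ℝ] ℝ :=
  ∑ i, ((2 * (z i).re) • (Complex.reCLM.comp (cd i)) + (2 * (z i).im) • (Complex.imCLM.comp (cd i)))

theorem dN_apply {n : ℕ} (z v : V n) :
    dN z v = ∑ i, (2 * (z i).re * (v i).re + 2 * (z i).im * (v i).im) := by
  simp [dN]

theorem normSq_eq {n : ℕ} (z : V n) : ‖z‖ ^ 2 = ∑ i, ((z i).re ^ 2 + (z i).im ^ 2) := by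
  rw [EuclideanSpace.norm_sq_eq]
  refine Finset.sum_congr rfl fun i _ => ?_
  rw [← Complex.normSq_eq_norm_sq, Complex.normSq_apply]
  ring

theorem hasFDerivAt_normSq {n : ℕ} (z : V n) :
    HasFDerivAt (fun u : V n => ‖u‖ ^ 2) (dN z) z := by
  have h : (fun u : V n => ‖u‖ ^ 2) = fun u : V n => ∑ i, ((u i).re ^ 2 + (u i).im ^ 2) := by
    funext u; exact normSq_eq u
  rw [h]
  unfold dN
  refine HasFDerivAt.fun_sum fun i _ => ?_
  have hr : HasFDerivAt (fun u : V n => (u i).re) (Complex.reCLM.comp (cd i)) z :=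
    (Complex.reCLM.comp (cd i)).hasFDerivAt
  have hi : HasFDerivAt (fun u : V n => (u i).im) (Complex.imCLM.comp (cd i)) z :=
    (Complex.imCLM.comp (cd i)).hasFDerivAt
  have h1 := (hr.pow 2).add (hi.pow 2)
  refine h1.congr_fderiv ?_
  ext v
  simp
  

theorem dN_bv {n : ℕ} (z : V n) (a : Fin n) : dN z (bv a) = 2 * (z a).re := by
  rw [dN_apply]
  rw [Finset.sum_eq_single a]
  · simp [bv]
  · intro b _ hb
    simp [bv, hb]
  · simp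

theorem dN_Ibv {n : ℕ} (z : V n) (a : Fin n) : dN z (Complex.I • bv a) = 2 * (z a).im := by
  rw [dN_apply]
  rw [Finset.sum_eq_single a]
  · simp [bv]
  · intro b _ hb
    simp [bv, hb]
  · simp

theorem hasFDerivAt_comp {n : ℕ} {K K' : ℝ → ℝ}
    (h1 : ∀ ρ, 0 ≤ ρ → HasDerivWithinAt K (K' ρ) (Ici 0) ρ) (z : V n) :
    HasFDerivAt (fun u : V n => K (‖u‖ ^ 2)) (K' (‖z‖ ^ 2) • dN z) z := by
  have h := (h1 (‖z‖ ^ 2) (by positivity)).comp_hasFDerivAt (f := fun u : V n => ‖u‖ ^ 2) z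
    (hasFDerivAt_normSq z) (Filter.Eventually.of_forall fun u => by
      show (0:ℝ) ≤ ‖u‖ ^ 2
      positivity)
  exact h

theorem hasFDerivAt_ofReal {n : ℕ} {f : V n → ℝ} {f' : V n →L[ℝ] ℝ} {z : V n}
    (h : HasFDerivAt f f' z) :
    HasFDerivAt (fun u => (f u : ℂ)) (Complex.ofRealCLM.comp f') z :=
  Complex.ofRealCLM.hasFDerivAt.comp z h

theorem dzbar_radial {n : ℕ} {K K' : ℝ → ℝ}
    (h1 : ∀ ρ, 0 ≤ ρ → HasDerivWithinAt K (K' ρ) (Ici 0) ρ) (z : V n) (b : Fin n) :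
    dzbar (fun u : V n => ((K (‖u‖ ^ 2) : ℝ) : ℂ)) z b = (K' (‖z‖ ^ 2) : ℂ) * z b := by
  have h := (hasFDerivAt_ofReal (hasFDerivAt_comp h1 z)).fderiv
  unfold dzbar
  rw [h]
  simp only [ContinuousLinearMap.comp_apply, smul_apply, dN_bv, dN_Ibv,
    Complex.ofRealCLM_apply, smul_eq_mul]
  apply Complex.ext <;> simp <;> ring

theorem dz_eq {n : ℕ} {f : V n → ℂ} {f' : V n →L[ℝ] ℂ} {z : V n} (h : HasFDerivAt f f' z)
    (a : Fin n) : dz f z a = (f' (bv a) - Complex.I * f' (Complex.I • bv a)) / 2 := by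
  unfold dz
  rw [h.fderiv]

end Rad

open Rad

theorem cHess_radial {n : ℕ} {K K' K'' : ℝ → ℝ}
    (h1 : ∀ ρ, 0 ≤ ρ → HasDerivWithinAt K (K' ρ) (Ici 0) ρ)
    (h2 : ∀ ρ, 0 ≤ ρ → HasDerivWithinAt K' (K'' ρ) (Ici 0) ρ) (z : V n) (a b : Fin n) :
    cHess (fun u : V n => K (‖u‖ ^ 2)) z a b =
      (if a = b then (K' (‖z‖ ^ 2) : ℂ) else 0) +
        (K'' (‖z‖ ^ 2) : ℂ) * (starRingEnd ℂ (z a)) * z b := by
  unfold cHess
  rw [Matrix.of_apply]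
  have hfun : (fun w : V n => dzbar (fun u : V n => ((K (‖u‖ ^ 2) : ℝ) : ℂ)) w b) =
      fun w : V n => ((K' (‖w‖ ^ 2) : ℝ) : ℂ) * w b := by
    funext w; exact dzbar_radial h1 w b
  rw [hfun]
  have hK := hasFDerivAt_ofReal (hasFDerivAt_comp h2 z)
  have hc : HasFDerivAt (fun w : V n => w b) (cd b) z := (cd b).hasFDerivAt
  have h := hK.mul hc
  refine (dz_eq (f := fun w : V n => ((K' (‖w‖ ^ 2) : ℝ) : ℂ) * w b) h a).trans ?_
  simp only [add_apply, smul_apply,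
    ContinuousLinearMap.comp_apply, Complex.ofRealCLM_apply, dN_bv, dN_Ibv, cd_apply, smul_eq_mul]
  by_cases hab : a = b
  · subst hab
    simp only [bv, if_true]
    apply Complex.ext <;> simp <;> ring
  · have hba : b ≠ a := fun h => hab h.symm
    simp only [bv, if_neg hab]
    have e1 : (EuclideanSpace.single a (1:ℂ) : V n) b = 0 := by simp [hba]
    have e2 : (Complex.I • (EuclideanSpace.single a (1:ℂ)) : V n) b = 0 := by simp [hba]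
    rw [e1, e2]
    apply Complex.ext <;> simp <;> ring

namespace Rad

open Matrix

/-- `α 1 + β z̄ ⊗ z` -/
def GG {n : ℕ} (z : V n) (α β : ℝ) : Matrix (Fin n) (Fin n) ℂ :=
  (α : ℂ) • (1 : Matrix (Fin n) (Fin n) ℂ) +
    (β : ℂ) • Matrix.vecMulVec (star (fun i => z i)) (fun i => z i)

theorem cHess_eq_GG {n : ℕ} {K K' K'' : ℝ → ℝ}
    (h1 : ∀ ρ, 0 ≤ ρ → HasDerivWithinAt K (K' ρ) (Ici 0) ρ)
    (h2 : ∀ ρ, 0 ≤ ρ → HasDerivWithinAt K' (K'' ρ) (Ici 0) ρ) (z : V n) :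
    cHess (fun u : V n => K (‖u‖ ^ 2)) z = GG z (K' (‖z‖ ^ 2)) (K'' (‖z‖ ^ 2)) := by
  ext a b
  rw [cHess_radial h1 h2]
  simp only [GG, Matrix.add_apply, Matrix.smul_apply, Matrix.one_apply, Matrix.vecMulVec_apply,
    Pi.star_apply, smul_eq_mul, mul_ite, mul_one, mul_zero, RCLike.star_def]
  ring

theorem dot_self {n : ℕ} (z : V n) :
    (fun i => z i) ⬝ᵥ star (fun i => z i) = ((‖z‖ ^ 2 : ℝ) : ℂ) := by
  rw [EuclideanSpace.norm_sq_eq]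
  simp only [dotProduct, Pi.star_apply, RCLike.star_def]
  rw [Complex.ofReal_sum]
  refine Finset.sum_congr rfl fun i _ => ?_
  rw [Complex.mul_conj, Complex.normSq_eq_norm_sq]

theorem GG_mul {n : ℕ} (z : V n) (α β γ δ : ℝ) :
    GG z α β * GG z γ δ = GG z (α * γ) (α * δ + β * γ + β * δ * ‖z‖ ^ 2) := by
  have hd := dot_self z
  unfold GG
  simp only [Matrix.add_mul, Matrix.mul_add, Matrix.smul_mul, Matrix.mul_smul, Matrix.one_mul,
    Matrix.mul_one, Matrix.vecMulVec_mul_vecMulVec, hd]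
  ext a b
  simp only [Matrix.add_apply, Matrix.smul_apply, Matrix.one_apply, Matrix.vecMulVec_apply,
    Pi.star_apply, smul_eq_mul, Pi.smul_apply]
  push_cast
  ring

theorem trace_GG {n : ℕ} (z : V n) (α β : ℝ) :
    (GG z α β).trace = ((n * α + β * ‖z‖ ^ 2 : ℝ) : ℂ) := by
  unfold GG
  rw [Matrix.trace_add, Matrix.trace_smul, Matrix.trace_smul, Matrix.trace_one,
    Matrix.trace_vecMulVec, dotProduct_comm, dot_self]
  simp
  ring

theorem GG_one {n : ℕ} (z : V n) : GG z 1 0 = 1 := by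
  simp [GG]

theorem det_GG {n : ℕ} (z : V (n + 1)) (α β : ℝ) (hα : α ≠ 0) :
    (GG z α β).det = ((α ^ n * (α + ‖z‖ ^ 2 * β) : ℝ) : ℂ) := by
  have hα' : (α : ℂ) ≠ 0 := by exact_mod_cast hα
  have h : GG z α β = (α : ℂ) • (1 + Matrix.replicateCol Unit (((β / α : ℝ) : ℂ) • star (fun i => z i)) *
      Matrix.replicateRow Unit (fun i => z i)) := by
    unfold GG
    rw [← Matrix.vecMulVec_eq, Matrix.smul_vecMulVec, smul_add, smul_smul]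
    congr 2
    push_cast
    field_simp
  rw [h, Matrix.det_smul, Matrix.det_one_add_replicateCol_mul_replicateRow, dotProduct_smul,
    dot_self]
  simp only [Fintype.card_fin, smul_eq_mul]
  push_cast
  field_simp
  ring

theorem GG_inv {n : ℕ} (z : V n) (α β : ℝ) (hα : α ≠ 0) (hβ : α + ‖z‖ ^ 2 * β ≠ 0) :
    (GG z α β)⁻¹ = GG z α⁻¹ (-(β / (α * (α + ‖z‖ ^ 2 * β)))) := by
  apply Matrix.inv_eq_right_inv
  rw [GG_mul, ← GG_one z]
  congr 1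
  · field_simp
  · generalize ‖z‖ ^ 2 = r at hβ ⊢
    obtain ⟨D, hD⟩ : ∃ D, D = α + r * β := ⟨_, rfl⟩
    rw [← hD] at hβ ⊢
    have hr : β * r = D - α := by rw [hD]; ring
    have e : α * -(β / (α * D)) + β * α⁻¹ + β * -(β / (α * D)) * r =
        α * -(β / (α * D)) + β * α⁻¹ + -(β / (α * D)) * (β * r) := by ring
    rw [e, hr]
    field_simp
    ring

theorem GG_hermitian {n : ℕ} (z : V n) (α β : ℝ) : (GG z α β).IsHermitian := by
  ext a b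
  simp only [GG, Matrix.conjTranspose_apply, Matrix.add_apply, Matrix.smul_apply,
    Matrix.one_apply, Matrix.vecMulVec_apply, Pi.star_apply, smul_eq_mul, star_add, star_mul',
    RCLike.star_def, Complex.conj_ofReal]
  by_cases hab : a = b
  · subst hab
    simp [mul_comm]
  · have hba : b ≠ a := fun h => hab h.symm
    simp [hab, hba, mul_comm]

theorem GG_posDef {n : ℕ} (z : V n) (α β : ℝ) (hα : 0 < α) (hβ : 0 < α + ‖z‖ ^ 2 * β) :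
    (GG z α β).PosDef := by
  refine Matrix.PosDef.of_dotProduct_mulVec_pos (GG_hermitian z α β) fun x hx => ?_
  have hform : star x ⬝ᵥ (GG z α β *ᵥ x) =
      ((α * ∑ i, ‖x i‖ ^ 2 + β * ‖∑ i, z i * x i‖ ^ 2 : ℝ) : ℂ) := by
    unfold GG
    rw [Matrix.add_mulVec, Matrix.smul_mulVec, Matrix.smul_mulVec, Matrix.one_mulVec,
      Matrix.vecMulVec_mulVec, dotProduct_add, dotProduct_smul, dotProduct_smul]
    have e1 : star x ⬝ᵥ x = ((∑ i, ‖x i‖ ^ 2 : ℝ) : ℂ) := by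
      simp only [dotProduct, Pi.star_apply, RCLike.star_def]
      rw [Complex.ofReal_sum]
      refine Finset.sum_congr rfl fun i _ => ?_
      rw [mul_comm, Complex.mul_conj, Complex.normSq_eq_norm_sq]
    have e2 : star x ⬝ᵥ (MulOpposite.op ((fun i => z i) ⬝ᵥ x) • star (fun i => z i)) =
        ((‖∑ i, z i * x i‖ ^ 2 : ℝ) : ℂ) := by
      rw [← Complex.normSq_eq_norm_sq, ← Complex.mul_conj]
      simp only [dotProduct, Pi.star_apply, Pi.smul_apply, RCLike.star_def, map_sum, map_mul,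
        MulOpposite.smul_eq_mul_unop, MulOpposite.unop_op]
      rw [Finset.mul_sum]
      refine Finset.sum_congr rfl fun i _ => ?_
      ring
    rw [e1, e2]
    push_cast
    simp only [smul_eq_mul]
  rw [hform]
  have hcs : ‖∑ i, z i * x i‖ ^ 2 ≤ ‖z‖ ^ 2 * ∑ i, ‖x i‖ ^ 2 := by
    rw [EuclideanSpace.norm_sq_eq]
    have h1 : ‖∑ i, z i * x i‖ ≤ ∑ i, ‖z i‖ * ‖x i‖ :=
      (norm_sum_le _ _).trans (le_of_eq (by simp))
    calc ‖∑ i, z i * x i‖ ^ 2 ≤ (∑ i, ‖z i‖ * ‖x i‖) ^ 2 :=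
          pow_le_pow_left₀ (norm_nonneg _) h1 2
      _ ≤ (∑ i, ‖z i‖ ^ 2) * ∑ i, ‖x i‖ ^ 2 := Finset.sum_mul_sq_le_sq_mul_sq _ _ _
  have hx0 : 0 < ∑ i, ‖x i‖ ^ 2 := by
    obtain ⟨i, hi⟩ : ∃ i, x i ≠ 0 := by
      by_contra hcon
      push Not at hcon
      exact hx (funext hcon)
    refine Finset.sum_pos' (fun j _ => by positivity) ⟨i, Finset.mem_univ _, by positivity⟩
  have hpos : 0 < α * ∑ i, ‖x i‖ ^ 2 + β * ‖∑ i, z i * x i‖ ^ 2 := by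
    set A := ∑ i, ‖x i‖ ^ 2
    set B := ‖∑ i, z i * x i‖ ^ 2
    have hB : 0 ≤ B := by positivity
    rcases le_total 0 β with hb | hb
    · have := mul_pos hα hx0
      have := mul_nonneg hb hB
      linarith
    · have h2 : β * (‖z‖ ^ 2 * A) ≤ β * B := mul_le_mul_of_nonpos_left hcs hb
      have h3 : 0 < (α + ‖z‖ ^ 2 * β) * A := mul_pos hβ hx0
      nlinarith
  exact_mod_cast hpos

end Rad

theorem posDef_radial {n : ℕ} {K K' K'' : ℝ → ℝ}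
    (h1 : ∀ ρ, 0 ≤ ρ → HasDerivWithinAt K (K' ρ) (Ici 0) ρ)
    (h2 : ∀ ρ, 0 ≤ ρ → HasDerivWithinAt K' (K'' ρ) (Ici 0) ρ) (z : V n)
    (hp1 : 0 < K' (‖z‖ ^ 2)) (hp2 : 0 < K' (‖z‖ ^ 2) + ‖z‖ ^ 2 * K'' (‖z‖ ^ 2)) :
    (cHess (fun u : V n => K (‖u‖ ^ 2)) z).PosDef := by
  rw [cHess_eq_GG h1 h2]
  exact GG_posDef z _ _ hp1 hp2

theorem scalarCurv_radial {K K' K'' L L' L'' : ℝ → ℝ}
    (h1 : ∀ ρ, 0 ≤ ρ → HasDerivWithinAt K (K' ρ) (Ici 0) ρ)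
    (h2 : ∀ ρ, 0 ≤ ρ → HasDerivWithinAt K' (K'' ρ) (Ici 0) ρ)
    (hp1 : ∀ ρ, 0 ≤ ρ → 0 < K' ρ) (hp2 : ∀ ρ, 0 ≤ ρ → 0 < K' ρ + ρ * K'' ρ)
    (hL : ∀ ρ, 0 ≤ ρ → L ρ = Real.log (K' ρ ^ 9 * (K' ρ + ρ * K'' ρ)))
    (h3 : ∀ ρ, 0 ≤ ρ → HasDerivWithinAt L (L' ρ) (Ici 0) ρ)
    (h4 : ∀ ρ, 0 ≤ ρ → HasDerivWithinAt L' (L'' ρ) (Ici 0) ρ) (z : V 10) :
    scalarCurv (fun u : V 10 => K (‖u‖ ^ 2)) z =
      -(9 * (L' (‖z‖ ^ 2) / K' (‖z‖ ^ 2)) +
        (L' (‖z‖ ^ 2) + ‖z‖ ^ 2 * L'' (‖z‖ ^ 2)) /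
          (K' (‖z‖ ^ 2) + ‖z‖ ^ 2 * K'' (‖z‖ ^ 2))) := by
  have hlog : (fun w : V 10 => Real.log ((cHess (fun u : V 10 => K (‖u‖ ^ 2)) w).det.re)) =
      fun w : V 10 => L (‖w‖ ^ 2) := by
    funext w
    have hw : (0:ℝ) ≤ ‖w‖ ^ 2 := by positivity
    rw [cHess_eq_GG h1 h2, det_GG w _ _ (hp1 _ hw).ne', hL _ hw, Complex.ofReal_re]
  have hz : (0:ℝ) ≤ ‖z‖ ^ 2 := by positivity
  unfold scalarCurv
  rw [hlog, cHess_eq_GG h1 h2, cHess_eq_GG h3 h4, GG_inv z _ _ (hp1 _ hz).ne' (hp2 _ hz).ne']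
  have htr : (∑ a, ∑ b, GG z (K' (‖z‖ ^ 2))⁻¹ (-(K'' (‖z‖ ^ 2) / (K' (‖z‖ ^ 2) *
        (K' (‖z‖ ^ 2) + ‖z‖ ^ 2 * K'' (‖z‖ ^ 2))))) b a *
      GG z (L' (‖z‖ ^ 2)) (L'' (‖z‖ ^ 2)) a b) =
      (GG z (K' (‖z‖ ^ 2))⁻¹ (-(K'' (‖z‖ ^ 2) / (K' (‖z‖ ^ 2) *
        (K' (‖z‖ ^ 2) + ‖z‖ ^ 2 * K'' (‖z‖ ^ 2))))) *
      GG z (L' (‖z‖ ^ 2)) (L'' (‖z‖ ^ 2))).trace := by
    rw [Matrix.trace, Finset.sum_comm]
    refine Finset.sum_congr rfl fun b _ => ?_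
    rw [Matrix.diag_apply, Matrix.mul_apply]
  rw [htr, GG_mul, trace_GG, Complex.ofReal_re]
  have hA := (hp1 _ hz).ne'
  have hB := (hp2 _ hz).ne'
  generalize K' (‖z‖ ^ 2) = A at *
  generalize K'' (‖z‖ ^ 2) = B at *
  generalize L' (‖z‖ ^ 2) = C at *
  generalize L'' (‖z‖ ^ 2) = D at *
  generalize ‖z‖ ^ 2 = r at *
  obtain ⟨E, hE⟩ : ∃ E, E = A + r * B := ⟨_, rfl⟩
  rw [← hE] at hB ⊢
  have hr : r * B = E - A := by rw [hE]; ring
  have e1 : (A⁻¹ * D + -(B / (A * E)) * C + -(B / (A * E)) * D * r) * r =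
      A⁻¹ * D * r - (r * B) / (A * E) * C - (r * B) / (A * E) * D * r := by ring
  rw [e1, hr]
  field_simp
  push_cast
  ring

end Crest.Agent.R213.F
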