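import Crest.Agent.R213.F.Scal
import Crest.Agent.R213.F.OneD

/-!
# Row 213, part F, F4c: `exists_L`   (helper465, helper926)
-/

set_option autoImplicit false

open Set MeasureTheory Filter Topology

noncomputable section

namespace Crest.Agent.R213.F

theorem exists_L {T ε : ℝ} {w S f g X : ℝ → ℝ → ℝ} (hP : Pot T ε w S f g)
    (hX : Inv T ε w S g X) {t : ℝ} (ht : t ∈ Ioo (-ε) T) :
    ∃ L1 L2 : ℝ → ℝ,
      (∀ ρ, 0 ≤ ρ → HasDerivWithinAt (L0 w g X t) (L1 ρ) (Ici 0) ρ) ∧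
      (∀ ρ, 0 ≤ ρ → HasDerivWithinAt L1 (L2 ρ) (Ici 0) ρ) ∧
      ∀ ρ, 0 ≤ ρ → -(9 * (L1 ρ / K1 g X t ρ) +
        (L1 ρ + ρ * L2 ρ) / (K1 g X t ρ + ρ * K2 w g X t ρ)) = S t (xr X t ρ) :=
  exists_L_of hP hX ht (fun _ hρ => hasDeriv_K1 hP hX ht hρ) (fun _ hρ => K1_add hP hX ht hρ)
    (fun _ hρ => hasDeriv_xr hP hX ht hρ)

end Crest.Agent.R213.F
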