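import Crest.Agent.R213.F.Pot
import Crest.Agent.R213.F.Inv
import Crest.Agent.R213.F.HH
import Crest.Agent.R213.F.OneD
import Crest.Agent.R213.F.ScalMain
import Crest.Agent.R213.F.Radial
import Crest.Agent.R213.F.ChartK

/-!
# Row 213, F6: assembly of part F: from the reduced flow to the Calabi flow on `ℂP¹⁰`   (helper926)
-/

set_option autoImplicit false

open Set MeasureTheory Filter Topology
open Crest.GeometryTopology.ProjKahler
open scoped ComplexOrder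

noncomputable section

namespace Crest.Agent.R213.F

/-! ### the two coordinates `y` -/

/-- `y` in the affine chart -/
def y0 {n : ℕ} (z : V n) : ℝ := ‖z‖ ^ 2 / (1 + ‖z‖ ^ 2)

/-- `y` in the chart `U_k` -/
def yk {n : ℕ} (k : Fin n) (w : V n) : ℝ := (1 + ‖w‖ ^ 2 - ‖w k‖ ^ 2) / (1 + ‖w‖ ^ 2)

theorem y0_mem {n : ℕ} (z : V n) : y0 z ∈ Icc (0 : ℝ) 1 := by
  unfold y0
  have h : 0 ≤ ‖z‖ ^ 2 := by positivity
  constructor
  · positivity
  · rw [div_le_one (by positivity)]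
    linarith

theorem norm_apply_sq_le {n : ℕ} (k : Fin n) (w : V n) : ‖w k‖ ^ 2 ≤ ‖w‖ ^ 2 := by
  rw [EuclideanSpace.norm_sq_eq]
  exact Finset.single_le_sum (f := fun i => ‖w i‖ ^ 2) (fun i _ => by positivity)
    (Finset.mem_univ k)

theorem yk_mem {n : ℕ} (k : Fin n) (w : V n) : yk k w ∈ Icc (0 : ℝ) 1 := by
  unfold yk
  have h := norm_apply_sq_le k w
  have h1 : 0 ≤ ‖w k‖ ^ 2 := by positivity
  constructor
  · apply div_nonneg <;> linarith [sq_nonneg ‖w‖]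
  · rw [div_le_one (by positivity)]
    linarith

theorem norm_transition {n : ℕ} (k : Fin n) (w : V n) (hw : w k ≠ 0) :
    ‖transition k w‖ ^ 2 = (1 + ‖w‖ ^ 2 - ‖w k‖ ^ 2) / ‖w k‖ ^ 2 := by
  have hk : ‖w k‖ ^ 2 ≠ 0 := by
    have := norm_ne_zero_iff.2 hw
    positivity
  rw [EuclideanSpace.norm_sq_eq, EuclideanSpace.norm_sq_eq,
    ← Finset.add_sum_erase _ _ (Finset.mem_univ k),
    ← Finset.add_sum_erase (a := k) Finset.univ (fun i => ‖w i‖ ^ 2) (Finset.mem_univ k)]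
  have h1 : ‖(transition k w) k‖ ^ 2 = 1 / ‖w k‖ ^ 2 := by
    simp [transition]
  have h2 : ∑ i ∈ Finset.univ.erase k, ‖(transition k w) i‖ ^ 2 =
      (∑ i ∈ Finset.univ.erase k, ‖w i‖ ^ 2) / ‖w k‖ ^ 2 := by
    rw [Finset.sum_div]
    apply Finset.sum_congr rfl
    intro i hi
    have hne : i ≠ k := Finset.ne_of_mem_erase hi
    simp [transition, hne, div_pow]
  rw [h1, h2]
  field_simp
  ring

theorem yk_eq {n : ℕ} (k : Fin n) (w : V n) (hw : w k ≠ 0) : yk k w = y0 (transition k w) := by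
  have hk : 0 < ‖w k‖ ^ 2 := by
    have := norm_pos_iff.2 hw
    positivity
  unfold yk y0
  rw [norm_transition k w hw]
  have h1 : 0 < 1 + ‖w‖ ^ 2 := by positivity
  have h2 : 1 + (1 + ‖w‖ ^ 2 - ‖w k‖ ^ 2) / ‖w k‖ ^ 2 = (1 + ‖w‖ ^ 2) / ‖w k‖ ^ 2 := by
    field_simp
    ring
  rw [h2, div_div_div_cancel_right₀ hk.ne']

theorem contDiff_y0 {n : ℕ} : ContDiff ℝ (⊤ : ℕ∞) (y0 : V n → ℝ) := by
  unfold y0
  have h : ContDiff ℝ (⊤ : ℕ∞) (fun z : V n => ‖z‖ ^ 2) := contDiff_norm_sq ℂ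
  exact h.div (contDiff_const.add h) (fun z => by positivity)

theorem contDiff_yk {n : ℕ} (k : Fin n) : ContDiff ℝ (⊤ : ℕ∞) (yk k : V n → ℝ) := by
  unfold yk
  have h : ContDiff ℝ (⊤ : ℕ∞) (fun z : V n => ‖z‖ ^ 2) := contDiff_norm_sq ℂ
  have h1 : ContDiff ℝ (⊤ : ℕ∞) (fun z : V n => z k) :=
    ((EuclideanSpace.proj k : V n →L[ℂ] ℂ).restrictScalars ℝ).contDiff
  have h2 : ContDiff ℝ (⊤ : ℕ∞) (fun z : ℂ => ‖z‖ ^ 2) := contDiff_norm_sq ℂ
  exact ((contDiff_const.add h).sub (h2.comp h1)).div (contDiff_const.add h)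
    (fun z => by positivity)

/-- the relative potentials -/
def PE (f g X : ℝ → ℝ → ℝ) (t : ℝ) : ProjExtension 10 where
  h z := HH f g X t (y0 z)
  ext k w := HH f g X t (yk k w)
  agree k w hw := by rw [yk_eq k w hw]

theorem PE_pot0 (f g X : ℝ → ℝ → ℝ) (t : ℝ) :
    (fun u : V 10 => fsPot u + (PE f g X t).h u) = fun u : V 10 => K0 f g X t (‖u‖ ^ 2) := rfl

theorem PE_potk (f g X : ℝ → ℝ → ℝ) (t : ℝ) (k : Fin 10) :
    (fun u : V 10 => fsPot u + (PE f g X t).ext k u) =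
      fun u : V 10 => Real.log (1 + ‖u‖ ^ 2 - ‖u k‖ ^ 2) +
        M0 f g X t (‖u k‖ ^ 2 / (1 + ‖u‖ ^ 2 - ‖u k‖ ^ 2)) := by
  funext u
  have h := norm_apply_sq_le k u
  set a := 1 + ‖u‖ ^ 2 - ‖u k‖ ^ 2 with ha
  have ha0 : 0 < a := by rw [ha]; linarith
  have h1 : 0 < 1 + ‖u‖ ^ 2 := by positivity
  have h2 : 1 + ‖u k‖ ^ 2 / a = (1 + ‖u‖ ^ 2) / a := by
    rw [eq_div_iff ha0.ne', add_mul, div_mul_cancel₀ _ ha0.ne', ha]
    ring
  unfold M0
  rw [h2, one_div_div, Real.log_div h1.ne' ha0.ne']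
  show Real.log (1 + ‖u‖ ^ 2) + HH f g X t (yk k u) = _
  unfold yk
  rw [← ha]
  ring

section

variable {T ε : ℝ} {w S f g X : ℝ → ℝ → ℝ}

theorem scal_PE (hP : Pot T ε w S f g) (hX : Inv T ε w S g X) {t : ℝ} (ht : t ∈ Ioo (-ε) T)
    (z : V 10) :
    scalarCurv (fun u => fsPot u + (PE f g X t).h u) z = S t (X t (y0 z)) := by
  obtain ⟨L1, L2, h1, h2, h3⟩ := exists_L hP hX ht
  rw [PE_pot0, scalarCurv_radial (K := K0 f g X t) (K' := K1 g X t) (K'' := K2 w g X t)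
    (L := L0 w g X t) (L' := L1) (L'' := L2)
    (fun ρ hρ => hasDeriv_K0 hP hX ht hρ) (fun ρ hρ => hasDeriv_K1 hP hX ht hρ)
    (fun ρ hρ => K1_pos hP hX ht hρ) (fun ρ hρ => (K1_add hP hX ht hρ).2)
    (fun ρ _ => rfl) h1 h2 z, h3 _ (by positivity)]
  rfl

theorem kahler_PE (hP : Pot T ε w S f g) (hX : Inv T ε w S g X) {t : ℝ} (ht : t ∈ Ioo (-ε) T) :
    IsKahlerWith fsPot (PE f g X t) := by
  have hsm := HH_sm hP hX
  refine ⟨?_, ?_, ?_, ?_⟩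
  · rw [← contDiffOn_univ]
    have h1 : ContDiffOn ℝ (⊤ : ℕ∞) (fun z : V 10 => ((t, y0 z) : ℝ × ℝ)) univ :=
      (contDiff_const.prodMk contDiff_y0).contDiffOn
    exact ContDiffOn.comp (g := fun p : ℝ × ℝ => HH f g X p.1 p.2) hsm h1
      (fun z _ => ⟨ht, y0_mem z⟩)
  · intro k
    rw [← contDiffOn_univ]
    have h1 : ContDiffOn ℝ (⊤ : ℕ∞) (fun z : V 10 => ((t, yk k z) : ℝ × ℝ)) univ :=
      (contDiff_const.prodMk (contDiff_yk k)).contDiffOn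
    exact ContDiffOn.comp (g := fun p : ℝ × ℝ => HH f g X p.1 p.2) hsm h1
      (fun z _ => ⟨ht, yk_mem k z⟩)
  · intro z
    rw [PE_pot0]
    exact posDef_radial (K := K0 f g X t) (K' := K1 g X t) (K'' := K2 w g X t)
      (fun ρ hρ => hasDeriv_K0 hP hX ht hρ) (fun ρ hρ => hasDeriv_K1 hP hX ht hρ) z
      (K1_pos hP hX ht (by positivity)) (K1_add hP hX ht (by positivity)).2
  · intro k z
    rw [PE_potk]
    exact posDef_chartK k (M := M0 f g X t) (M' := M1 g X t) (M'' := M2 w g X t)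
      (fun q hq => hasDeriv_M0 hP hX ht hq) (fun q hq => hasDeriv_M1 hP hX ht hq)
      (fun q hq => (M_pos hP hX ht hq).1) (fun q hq => (M_pos hP hX ht hq).2) z

theorem flow_PE (hP : Pot T ε w S f g) (hX : Inv T ε w S g X) :
    IsCalabiFlowFS (PE f g X) T := by
  have hε := hP.flow.eps_pos
  have hsm := HH_sm hP hX
  have hI : ∀ t ∈ Ico (0 : ℝ) T, t ∈ Ioo (-ε) T := fun t ht => ⟨by linarith [ht.1], ht.2⟩
  refine ⟨fun t ht => kahler_PE hP hX (hI t ht), ?_, ?_, ?_⟩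
  · have h1 : ContDiffOn ℝ (⊤ : ℕ∞) (fun p : ℝ × V 10 => ((p.1, y0 p.2) : ℝ × ℝ))
        (Ico 0 T ×ˢ univ) :=
      (contDiff_fst.prodMk (contDiff_y0.comp contDiff_snd)).contDiffOn
    exact ContDiffOn.comp (g := fun p : ℝ × ℝ => HH f g X p.1 p.2) hsm h1
      (fun p hp => ⟨hI _ hp.1, y0_mem p.2⟩)
  · intro k
    have h1 : ContDiffOn ℝ (⊤ : ℕ∞) (fun p : ℝ × V 10 => ((p.1, yk k p.2) : ℝ × ℝ))
        (Ico 0 T ×ˢ univ) :=
      (contDiff_fst.prodMk ((contDiff_yk k).comp contDiff_snd)).contDiffOn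
    exact ContDiffOn.comp (g := fun p : ℝ × ℝ => HH f g X p.1 p.2) hsm h1
      (fun p hp => ⟨hI _ hp.1, yk_mem k p.2⟩)
  · intro t ht z
    have ht' : t ∈ Ioo (-ε) T := hI t ⟨ht.1.le, ht.2⟩
    rw [scal_PE hP hX ht' z]
    have h1 := (HH_dt hP hX ht' (y0_mem z)).deriv
    have h2 : (((10 : ℕ) : ℝ) * (((10 : ℕ) : ℝ) + 1)) = 110 := by norm_num
    rw [h2]
    exact h1

theorem inv_PE (t : ℝ) : IsUnitarilyInvariant (PE f g X t).h := by
  intro U z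
  show HH f g X t (y0 (U z)) = HH f g X t (y0 z)
  unfold y0
  rw [U.norm_map]

end

end Crest.Agent.R213.F

namespace Crest.Agent.R213

open F

/-- **Part F** -/
theorem geo {T ε a : ℝ} {w S : ℝ → ℝ → ℝ} (hF : Flow T ε w S) (ha : 0 < a)
    (hlim : Tendsto (fun t => S t 0 * √(T - t)) (𝓝[<] T) (𝓝 a)) :
    ∃ T : ℝ, 0 < T ∧ ∃ h : ℝ → ProjExtension 10, IsCalabiFlowFS h T ∧
      IsUnitarilyInvariant (h 0).h ∧
      ∃ (p : V 10) (a : ℝ), 0 < a ∧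
        Filter.Tendsto (fun t => scalarCurv (fun u => fsPot u + (h t).h u) p * Real.sqrt (T - t))
          (nhdsWithin T (Set.Iio T)) (nhds a) := by
  obtain ⟨f, g, hP⟩ := exists_pot hF
  obtain ⟨X, hX⟩ := exists_inv hP
  refine ⟨T, hF.T_pos, PE f g X, flow_PE hP hX, inv_PE 0, 0, a, ha, ?_⟩
  refine hlim.congr' ?_
  have h1 : Ioo (-ε) T ∈ 𝓝[<] T :=
    Ioo_mem_nhdsLT (by linarith [hF.T_pos, hF.eps_pos])
  filter_upwards [h1] with t ht
  rw [scal_PE hP hX ht 0]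
  have h2 : y0 (0 : V 10) = 0 := by simp [y0]
  rw [h2, hX.zero t ht]

end Crest.Agent.R213
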