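import Crest.Agent.R213.J0
import Crest.Agent.R213.F.FDefs

/-!
# Row 213, part F: elementary facts about `DD`, `YY`, `h0` (helper690)
-/

set_option autoImplicit false

open Set MeasureTheory Filter Topology

noncomputable section

namespace Crest.Agent.R213.F

variable {T ε : ℝ} {w S f g X : ℝ → ℝ → ℝ} {t x y : ℝ}

theorem DD_pos (g : ℝ → ℝ → ℝ) (t : ℝ) {x : ℝ} (hx : x ∈ Icc (0 : ℝ) 1) : 0 < DD g t x := by
  unfold DD
  have hE := Real.exp_pos (g t x)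
  rcases hx with ⟨h0, h1⟩
  rcases h1.lt_or_eq with h | h
  · have := mul_nonneg h0 hE.le
    linarith
  · subst h
    linarith

theorem YY_zero (g : ℝ → ℝ → ℝ) (t : ℝ) : YY g t 0 = 0 := by
  simp [YY]

theorem YY_one (g : ℝ → ℝ → ℝ) (t : ℝ) : YY g t 1 = 1 := by
  have hE := (Real.exp_pos (g t 1)).ne'
  simp [YY, DD]

theorem Pot.P_pos (hP : Pot T ε w S f g) (ht : t ∈ Ioo (-ε) T) (hx : x ∈ Icc (0 : ℝ) 1) :
    0 < PP w t x := hP.flow.pos t ht x hx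

theorem Pot.sm_E (hP : Pot T ε w S f g) : Sm (Ioo (-ε) T) 1 (fun t x => Real.exp (g t x)) :=
  hP.smg.exp

theorem Pot.sm_DD (hP : Pot T ε w S f g) : Sm (Ioo (-ε) T) 1 (DD g) :=
  ((Sm.const 1).sub Sm.snd).add (Sm.snd.mul hP.sm_E)

theorem Pot.sm_YY (hP : Pot T ε w S f g) : Sm (Ioo (-ε) T) 1 (YY g) :=
  (Sm.snd.mul hP.sm_E).div hP.sm_DD fun t _ _ hx => (DD_pos g t hx).ne'

theorem Pot.sm_h0 (hP : Pot T ε w S f g) : Sm (Ioo (-ε) T) 1 (h0 f g) :=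
  ((Sm.snd.mul hP.smg).sub hP.smf).sub (hP.sm_DD.log fun t _ _ hx => (DD_pos g t hx).ne')

theorem Pot.hasDerivX_E (hP : Pot T ε w S f g) (ht : t ∈ Ioo (-ε) T) (hx : x ∈ Icc (0 : ℝ) 1) :
    HasDerivWithinAt (fun r => Real.exp (g t r)) (Real.exp (g t x) * w t x) (Icc 0 1) x :=
  (hP.gx t ht x hx).exp

theorem Pot.hasDerivT_E (hP : Pot T ε w S f g) (ht : t ∈ Ioo (-ε) T) (hx : x ∈ Icc (0 : ℝ) 1) :
    HasDerivAt (fun r => Real.exp (g r x)) (Real.exp (g t x) * (- dx 1 S t x)) t :=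
  (hP.gt t ht x hx).exp

theorem Pot.hasDerivX_DD (hP : Pot T ε w S f g) (ht : t ∈ Ioo (-ε) T)
    (hx : x ∈ Icc (0 : ℝ) 1) :
    HasDerivWithinAt (fun r => DD g t r)
      (-1 + (Real.exp (g t x) + x * (Real.exp (g t x) * w t x))) (Icc 0 1) x := by
  have h1 := ((hasDerivWithinAt_id x (Icc (0 : ℝ) 1)).const_sub 1).add
    ((hasDerivWithinAt_id x (Icc (0 : ℝ) 1)).mul (hP.hasDerivX_E ht hx))
  refine h1.congr_deriv ?_
  simp

theorem Pot.hasDerivT_DD (hP : Pot T ε w S f g) (ht : t ∈ Ioo (-ε) T)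
    (hx : x ∈ Icc (0 : ℝ) 1) :
    HasDerivAt (fun r => DD g r x) (x * (Real.exp (g t x) * (- dx 1 S t x))) t :=
  ((hP.hasDerivT_E ht hx).const_mul x).const_add (1 - x)

/-- `Y_x = E P / D²` -/
theorem Pot.hasDerivX_YY (hP : Pot T ε w S f g) (ht : t ∈ Ioo (-ε) T)
    (hx : x ∈ Icc (0 : ℝ) 1) :
    HasDerivWithinAt (fun r => YY g t r) (Real.exp (g t x) * PP w t x / DD g t x ^ 2)
      (Icc 0 1) x := by
  have hD := (DD_pos g t hx).ne'
  have h1 := ((hasDerivWithinAt_id x (Icc (0 : ℝ) 1)).mul (hP.hasDerivX_E ht hx)).div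
    (hP.hasDerivX_DD ht hx) hD
  refine h1.congr_deriv ?_
  simp only [id, Pi.mul_apply]
  congr 1
  unfold DD PP
  ring

/-- `Y_t = - x (1-x) E S_x / D²` -/
theorem Pot.hasDerivT_YY (hP : Pot T ε w S f g) (ht : t ∈ Ioo (-ε) T)
    (hx : x ∈ Icc (0 : ℝ) 1) :
    HasDerivAt (fun r => YY g r x)
      (-(x * (1 - x) * Real.exp (g t x) * dx 1 S t x) / DD g t x ^ 2) t := by
  have hD := (DD_pos g t hx).ne'
  have h1 := ((hP.hasDerivT_E ht hx).const_mul x).div (hP.hasDerivT_DD ht hx) hD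
  refine h1.congr_deriv ?_
  congr 1
  unfold DD
  ring

/-- `h0_x = -(E-1) P / D` -/
theorem Pot.hasDerivX_h0 (hP : Pot T ε w S f g) (ht : t ∈ Ioo (-ε) T)
    (hx : x ∈ Icc (0 : ℝ) 1) :
    HasDerivWithinAt (fun r => h0 f g t r)
      (-((Real.exp (g t x) - 1) * PP w t x / DD g t x)) (Icc 0 1) x := by
  have hD := (DD_pos g t hx).ne'
  have h1 := (((hasDerivWithinAt_id x (Icc (0 : ℝ) 1)).mul (hP.gx t ht x hx)).sub
    (hP.fx t ht x hx)).sub ((hP.hasDerivX_DD ht hx).log hD)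
  refine h1.congr_deriv ?_
  simp only [id]
  rw [← neg_div, eq_div_iff hD, sub_mul, div_mul_cancel₀ _ hD]
  unfold DD PP
  ring

/-- `h0_t` -/
theorem Pot.hasDerivT_h0 (hP : Pot T ε w S f g) (ht : t ∈ Ioo (-ε) T)
    (hx : x ∈ Icc (0 : ℝ) 1) :
    HasDerivAt (fun r => h0 f g r x)
      (-(x * dx 1 S t x) - (110 - S t x) + x * Real.exp (g t x) * dx 1 S t x / DD g t x) t := by
  have hD := (DD_pos g t hx).ne'
  have h1 := (((hP.gt t ht x hx).const_mul x).sub (hP.ft t ht x hx)).sub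
    ((hP.hasDerivT_DD ht hx).log hD)
  refine h1.congr_deriv ?_
  ring

end Crest.Agent.R213.F
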