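import Crest.Agent.R213.J0
import Crest.Agent.R213.J310
import Crest.Agent.R213.F.FDefs

/-!
# Row 213, part F, F0: the symplectic potential (helper690)
`g t x := ∫₀ˣ w(t,s) ds - ∫₀ᵗ S_x(r,0) dr`, `f t x := ∫₀ˣ g(t,s) ds + ∫₀ᵗ (110 - S(r,0)) dr`.
-/

set_option autoImplicit false

open Set MeasureTheory Filter Topology

noncomputable section

namespace Crest.Agent.R213.F

/-- fundamental theorem in `x` for `Sm` functions -/
theorem integral_dx {s : Set ℝ} {L : ℝ} (hs : IsOpen s) (hL : 0 < L) {u : ℝ → ℝ → ℝ}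
    (hu : Sm s L u) {t x : ℝ} (ht : t ∈ s) (hx : x ∈ Icc 0 L) :
    ∫ ξ in (0 : ℝ)..x, dx L u t ξ = u t x - u t 0 := by
  refine intervalIntegral.integral_eq_sub_of_hasDeriv_right_of_le hx.1
    ((hu.continuousOn_right ht).mono (Icc_subset_Icc_right hx.2)) (fun y hy => ?_) ?_
  · have hy' : y ∈ Icc 0 L := ⟨hy.1.le, hy.2.le.trans hx.2⟩
    refine (hu.hasDx hL ht hy').mono_of_mem_nhdsWithin ?_
    refine mem_nhdsWithin_of_mem_nhds (Icc_mem_nhds hy.1 (hy.2.trans_le hx.2))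
  · apply ContinuousOn.intervalIntegrable
    rw [uIcc_of_le hx.1]
    exact ((Sm.dx hs hL hu).continuousOn_right ht).mono (Icc_subset_Icc_right hx.2)

theorem exists_pot {T ε : ℝ} {w S : ℝ → ℝ → ℝ} (hF : Flow T ε w S) :
    ∃ f g : ℝ → ℝ → ℝ, Pot T ε w S f g := by
  have hT := hF.T_pos
  have hε := hF.eps_pos
  have hso : IsOpen (Ioo (-ε) T) := isOpen_Ioo
  have hsc : Convex ℝ (Ioo (-ε) T) := convex_Ioo _ _
  have hsu : UniqueDiffOn ℝ (Ioo (-ε) T) := hso.uniqueDiffOn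
  have h0 : (0 : ℝ) ∈ Ioo (-ε) T := ⟨by linarith, hT⟩
  have m0 : (0 : ℝ) ∈ Icc (0 : ℝ) 1 := ⟨le_rfl, zero_le_one⟩
  have h1 : (0 : ℝ) < 1 := zero_lt_one
  have hSx : Sm (Ioo (-ε) T) 1 (dx 1 S) := Sm.dx hso h1 hF.smS
  -- primitives in time at `x = 0`
  have pA : ∀ {u : ℝ → ℝ → ℝ}, Sm (Ioo (-ε) T) 1 u →
      Sm (Ioo (-ε) T) 1 (fun t _ => J310.Pt 0 u t 0) := fun {u} hu =>
    (J310.sm_Pt hsc hsu h1 h0 hu).comp2 Sm.fst (Sm.const 0) (fun _ ht _ _ => ht)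
      fun _ _ _ _ => m0
  have pB : ∀ {u : ℝ → ℝ → ℝ}, Sm (Ioo (-ε) T) 1 u → ∀ t ∈ Ioo (-ε) T,
      HasDerivAt (fun r => J310.Pt 0 u r 0) (u t 0) t := fun {u} hu t ht => by
    have := (J310.sm_Pt hsc hsu h1 h0 hu).hasDt hso ht m0
    rwa [J310.dt_Pt hsc hso h0 hu ht m0] at this
  set g : ℝ → ℝ → ℝ := fun t x => J310.Px w t x - J310.Pt 0 (dx 1 S) t 0 with hg
  have smg : Sm (Ioo (-ε) T) 1 g := (J310.sm_Px hsc hsu h1 hF.smw).sub (pA hSx)
  have gx : ∀ t ∈ Ioo (-ε) T, ∀ x ∈ Icc (0 : ℝ) 1,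
      HasDerivWithinAt (fun r => g t r) (w t x) (Icc 0 1) x := fun t ht x hx =>
    (J310.hasDeriv_Px hF.smw ht hx).sub_const _
  have gt : ∀ t ∈ Ioo (-ε) T, ∀ x ∈ Icc (0 : ℝ) 1,
      HasDerivAt (fun r => g r x) (- dx 1 S t x) t := fun t ht x hx => by
    have a1 := (J310.sm_Px hsc hsu h1 hF.smw).hasDt hso ht hx
    rw [J310.dt_Px hsc hso h1 hF.smw ht hx] at a1
    have a2 : J310.Px (dt w) t x = -(dx 1 S t x - dx 1 S t 0) := by
      rw [← integral_dx hso h1 hSx ht hx, ← intervalIntegral.integral_neg]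
      refine intervalIntegral.integral_congr fun ξ hξ => ?_
      rw [uIcc_of_le hx.1] at hξ
      exact hF.flow t ht ξ ⟨hξ.1, hξ.2.trans hx.2⟩
    refine (a1.sub (pB hSx t ht)).congr_deriv ?_
    rw [a2]
    ring
  set f : ℝ → ℝ → ℝ := fun t x => J310.Px g t x + J310.Pt 0 (fun t x => 110 - S t x) t 0 with hf
  have smC : Sm (Ioo (-ε) T) 1 (fun t x => 110 - S t x) := (Sm.const 110).sub hF.smS
  have smf : Sm (Ioo (-ε) T) 1 f := (J310.sm_Px hsc hsu h1 smg).add (pA smC)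
  refine ⟨f, g, hF, smf, smg, ?_, gx, ?_, gt⟩
  · intro t ht x hx
    exact (J310.hasDeriv_Px smg ht hx).add_const _
  · intro t ht x hx
    have a1 := (J310.sm_Px hsc hsu h1 smg).hasDt hso ht hx
    rw [J310.dt_Px hsc hso h1 smg ht hx] at a1
    have a2 : J310.Px (dt g) t x = -(S t x - S t 0) := by
      rw [← integral_dx hso h1 hF.smS ht hx, ← intervalIntegral.integral_neg]
      refine intervalIntegral.integral_congr fun ξ hξ => ?_
      rw [uIcc_of_le hx.1] at hξ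
      exact (gt t ht ξ ⟨hξ.1, hξ.2.trans hx.2⟩).deriv
    refine (a1.add (pB smC t ht)).congr_deriv ?_
    rw [a2]
    ring

end Crest.Agent.R213.F
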