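import Crest.Agent.R213.J0
import Crest.Agent.R213.F.FDefs

/-!
# Row 213, part F, F4c: the scalar curvature identity in one variable (helper465)
-/

set_option autoImplicit false

open Set MeasureTheory Filter Topology

noncomputable section

namespace Crest.Agent.R213.F

/-! ### derivatives of `Kint` -/

theorem prim_hasDerivAt {F : ℝ → ℝ} (hF : ContinuousOn F (Icc 0 1)) {x : ℝ} (hx : x ∈ Ioo (0 : ℝ) 1) :
    HasDerivAt (fun y => ∫ ξ in (0 : ℝ)..y, F ξ) (F x) x := by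
  have hsub : uIcc 0 x ⊆ Icc (0 : ℝ) 1 := by
    rw [uIcc_of_le hx.1.le]; exact Icc_subset_Icc le_rfl hx.2.le
  refine intervalIntegral.integral_hasDerivAt_right (hF.mono hsub).intervalIntegrable ?_ ?_
  · exact (hF.mono Ioo_subset_Icc_self).stronglyMeasurableAtFilter isOpen_Ioo x hx
  · exact hF.continuousAt (Icc_mem_nhds hx.1 hx.2)

theorem Kint_eq {F : ℝ → ℝ} (hF : ContinuousOn F (Icc 0 1)) {x : ℝ} (hx : x ∈ Icc (0 : ℝ) 1) :
    Kint F x = x * (∫ ξ in (0 : ℝ)..x, ξ ^ 9 * F ξ) - ∫ ξ in (0 : ℝ)..x, ξ ^ 10 * F ξ := by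
  have hsub : uIcc 0 x ⊆ Icc (0 : ℝ) 1 := by
    rw [uIcc_of_le hx.1]; exact Icc_subset_Icc le_rfl hx.2
  have h9 : IntervalIntegrable (fun ξ => ξ ^ 9 * F ξ) volume 0 x :=
    ((continuous_id.pow 9).continuousOn.mul (hF.mono hsub)).intervalIntegrable
  have h10 : IntervalIntegrable (fun ξ => ξ ^ 10 * F ξ) volume 0 x :=
    ((continuous_id.pow 10).continuousOn.mul (hF.mono hsub)).intervalIntegrable
  unfold Kint
  rw [← intervalIntegral.integral_const_mul, ← intervalIntegral.integral_sub (h9.const_mul x) h10]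
  congr 1
  ext ξ
  ring

theorem Kint_hasDerivAt {F : ℝ → ℝ} (hF : ContinuousOn F (Icc 0 1)) {x : ℝ}
    (hx : x ∈ Ioo (0 : ℝ) 1) :
    HasDerivAt (Kint F) (∫ ξ in (0 : ℝ)..x, ξ ^ 9 * F ξ) x := by
  have c9 : ContinuousOn (fun ξ : ℝ => ξ ^ 9 * F ξ) (Icc 0 1) :=
    (continuous_id.pow 9).continuousOn.mul hF
  have c10 : ContinuousOn (fun ξ : ℝ => ξ ^ 10 * F ξ) (Icc 0 1) :=
    (continuous_id.pow 10).continuousOn.mul hF
  have h1 := ((hasDerivAt_id x).mul (prim_hasDerivAt c9 hx)).sub (prim_hasDerivAt c10 hx)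
  have h2 : HasDerivAt (Kint F) (1 * (∫ ξ in (0 : ℝ)..x, ξ ^ 9 * F ξ) + id x * (x ^ 9 * F x) -
      x ^ 10 * F x) x := by
    refine h1.congr_of_eventuallyEq ?_
    filter_upwards [Icc_mem_nhds hx.1 hx.2] with y hy
    rw [Kint_eq hF hy]
    simp
  convert h2 using 1
  simp only [id]
  ring

/-! ### the ODE: `110 r + 22 x r' + x² r'' = S` -/

theorem ode_of_Kint {r r1 r2 F : ℝ → ℝ} (hF : ContinuousOn F (Icc 0 1))
    (hr : ∀ x ∈ Icc (0 : ℝ) 1, HasDerivWithinAt r (r1 x) (Icc 0 1) x)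
    (hr1 : ∀ x ∈ Icc (0 : ℝ) 1, HasDerivWithinAt r1 (r2 x) (Icc 0 1) x)
    (hr2 : ContinuousOn r2 (Icc 0 1))
    (hK : ∀ x ∈ Icc (0 : ℝ) 1, x ^ 11 * r x = Kint F x) :
    ∀ x ∈ Icc (0 : ℝ) 1, 110 * r x + 22 * x * r1 x + x ^ 2 * r2 x = F x := by
  have hrc : ContinuousOn r (Icc 0 1) := fun x hx => (hr x hx).continuousWithinAt
  have hr1c : ContinuousOn r1 (Icc 0 1) := fun x hx => (hr1 x hx).continuousWithinAt
  have c9 : ContinuousOn (fun ξ : ℝ => ξ ^ 9 * F ξ) (Icc 0 1) :=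
    (continuous_id.pow 9).continuousOn.mul hF
  have hin : ∀ x ∈ Ioo (0 : ℝ) 1, 110 * r x + 22 * x * r1 x + x ^ 2 * r2 x = F x := by
    have d1 : ∀ x ∈ Ioo (0 : ℝ) 1,
        11 * x ^ 10 * r x + x ^ 11 * r1 x = ∫ ξ in (0 : ℝ)..x, ξ ^ 9 * F ξ := by
      intro x hx
      have e1 := (hasDerivAt_pow 11 x).mul ((hr x (Ioo_subset_Icc_self hx)).hasDerivAt
        (Icc_mem_nhds hx.1 hx.2))
      have e2 : HasDerivAt (fun y => y ^ 11 * r y) (∫ ξ in (0 : ℝ)..x, ξ ^ 9 * F ξ) x := by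
        refine (Kint_hasDerivAt hF hx).congr_of_eventuallyEq ?_
        filter_upwards [Icc_mem_nhds hx.1 hx.2] with y hy
        exact hK y hy
      have e3 := e1.unique e2
      rw [← e3]
      norm_num
    intro x hx
    have e0 := (hr x (Ioo_subset_Icc_self hx)).hasDerivAt (Icc_mem_nhds hx.1 hx.2)
    have e0' := (hr1 x (Ioo_subset_Icc_self hx)).hasDerivAt (Icc_mem_nhds hx.1 hx.2)
    have e1 : HasDerivAt (fun y => 11 * y ^ 10 * r y + y ^ 11 * r1 y)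
        ((11 * (10 * x ^ 9)) * r x + 11 * x ^ 10 * r1 x + (11 * x ^ 10 * r1 x + x ^ 11 * r2 x)) x := by
      have a1 : HasDerivAt (fun y : ℝ => 11 * y ^ 10) (11 * (10 * x ^ 9)) x := by
        have := (hasDerivAt_pow 10 x).const_mul (11 : ℝ)
        simpa using this
      have a2 : HasDerivAt (fun y : ℝ => y ^ 11) (11 * x ^ 10) x := by
        have := hasDerivAt_pow 11 x
        simpa using this
      exact (a1.mul e0).add (a2.mul e0')
    have e2 : HasDerivAt (fun y => 11 * y ^ 10 * r y + y ^ 11 * r1 y) (x ^ 9 * F x) x := by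
      refine (prim_hasDerivAt c9 hx).congr_of_eventuallyEq ?_
      filter_upwards [Ioo_mem_nhds hx.1 hx.2] with y hy
      exact d1 y hy
    have e3 := e1.unique e2
    have hx9 : x ^ 9 ≠ 0 := pow_ne_zero 9 hx.1.ne'
    apply mul_left_cancel₀ hx9
    rw [← e3]
    ring
  have hcl : closure (Ioo (0 : ℝ) 1) = Icc 0 1 := closure_Ioo (by norm_num)
  have := Set.EqOn.of_subset_closure (s := Ioo (0 : ℝ) 1) (t := Icc (0 : ℝ) 1)
    (f := fun x => 110 * r x + 22 * x * r1 x + x ^ 2 * r2 x) (g := F) hin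
    (((continuousOn_const.mul hrc).add ((continuousOn_const.mul continuousOn_id).mul hr1c)).add
      ((continuous_id.pow 2).continuousOn.mul hr2)) hF Ioo_subset_Icc_self hcl.ge
  exact this

/-! ### the one-dimensional data -/

/-- `r = (1+(1-x)w)/P` -/
def RR (w : ℝ → ℝ → ℝ) (t x : ℝ) : ℝ := (1 + (1 - x) * w t x) / PP w t x

section
variable {T ε : ℝ} {w S f g X : ℝ → ℝ → ℝ}

theorem PP_pos (hP : Pot T ε w S f g) {t x : ℝ} (ht : t ∈ Ioo (-ε) T) (hx : x ∈ Icc (0 : ℝ) 1) :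
    0 < PP w t x := hP.flow.pos t ht x hx

theorem PP_sm (hP : Pot T ε w S f g) : Sm (Ioo (-ε) T) 1 (PP w) := by
  unfold PP
  exact (Sm.const 1).add ((Sm.snd.mul ((Sm.const 1).sub Sm.snd)).mul hP.flow.smw)

theorem RR_sm (hP : Pot T ε w S f g) : Sm (Ioo (-ε) T) 1 (RR w) := by
  unfold RR
  exact ((Sm.const 1).add (((Sm.const 1).sub Sm.snd).mul hP.flow.smw)).div (PP_sm hP)
    (fun t ht x hx => (PP_pos hP ht hx).ne')

theorem RR_Kint (hP : Pot T ε w S f g) {t x : ℝ} (ht : t ∈ Ioo (-ε) T) (hx : x ∈ Icc (0 : ℝ) 1) :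
    x ^ 11 * RR w t x = Kint (S t) x := by
  rw [← hP.flow.scal t ht x hx]
  have h := PP_pos hP ht hx
  unfold RR
  unfold PP at h ⊢
  field_simp
  ring

/-- `S = 110 r + 22 x r' + x² r''` -/
theorem RR_ode (hP : Pot T ε w S f g) {t : ℝ} (ht : t ∈ Ioo (-ε) T) :
    ∀ x ∈ Icc (0 : ℝ) 1, 110 * RR w t x + 22 * x * dx 1 (RR w) t x +
      x ^ 2 * dx 1 (dx 1 (RR w)) t x = S t x := by
  have h1 := RR_sm hP
  have h2 := h1.dx isOpen_Ioo one_pos
  have h3 := h2.dx isOpen_Ioo one_pos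
  exact ode_of_Kint (hP.flow.smS.continuousOn_right ht) (fun x hx => h1.hasDx one_pos ht hx)
    (fun x hx => h2.hasDx one_pos ht hx) (h3.continuousOn_right ht) (fun x hx => RR_Kint hP ht hx)

theorem PP_hasDeriv (hP : Pot T ε w S f g) {t x : ℝ} (ht : t ∈ Ioo (-ε) T)
    (hx : x ∈ Icc (0 : ℝ) 1) :
    HasDerivWithinAt (PP w t) ((1 - 2 * x) * w t x + x * (1 - x) * dx 1 w t x) (Icc 0 1) x := by
  have hw := hP.flow.smw.hasDx one_pos ht hx
  have h0 := hasDerivWithinAt_id x (Icc (0 : ℝ) 1)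
  have h1 := ((h0.mul (h0.const_sub 1)).mul hw).const_add 1
  refine h1.congr_deriv ?_
  simp only [id, Pi.mul_apply]
  ring

theorem RR_dx (hP : Pot T ε w S f g) {t x : ℝ} (ht : t ∈ Ioo (-ε) T) (hx : x ∈ Icc (0 : ℝ) 1) :
    dx 1 (RR w) t x = ((-(w t x) + (1 - x) * dx 1 w t x) * PP w t x -
      (1 + (1 - x) * w t x) * ((1 - 2 * x) * w t x + x * (1 - x) * dx 1 w t x)) /
      PP w t x ^ 2 := by
  have hw := hP.flow.smw.hasDx one_pos ht hx
  have h0 := hasDerivWithinAt_id x (Icc (0 : ℝ) 1)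
  have h1 := ((h0.const_sub 1).mul hw).const_add 1
  have h2 := h1.div (PP_hasDeriv hP ht hx) (PP_pos hP ht hx).ne'
  have h3 : HasDerivWithinAt (RR w t) (((-(w t x) + (1 - x) * dx 1 w t x) * PP w t x -
      (1 + (1 - x) * w t x) * ((1 - 2 * x) * w t x + x * (1 - x) * dx 1 w t x)) /
      PP w t x ^ 2) (Icc 0 1) x := by
    refine h2.congr_deriv ?_
    simp only [id, Pi.mul_apply]
    ring
  exact h3.derivWithin (uniqueDiffOn_Icc one_pos x hx)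

/-- `N = ψ' - 10 r = -(11 r + x r')` -/
def NN (w : ℝ → ℝ → ℝ) (t x : ℝ) : ℝ := -(11 * RR w t x + x * dx 1 (RR w) t x)

/-- `N'` -/
def NN1 (w : ℝ → ℝ → ℝ) (t x : ℝ) : ℝ :=
  -(12 * dx 1 (RR w) t x + x * dx 1 (dx 1 (RR w)) t x)

theorem NN_hasDeriv (hP : Pot T ε w S f g) {t x : ℝ} (ht : t ∈ Ioo (-ε) T)
    (hx : x ∈ Icc (0 : ℝ) 1) :
    HasDerivWithinAt (NN w t) (NN1 w t x) (Icc 0 1) x := by
  have h1 := RR_sm hP
  have h2 := h1.dx isOpen_Ioo one_pos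
  have e1 := h1.hasDx one_pos ht hx
  have e2 := h2.hasDx one_pos ht hx
  have h0 := hasDerivWithinAt_id x (Icc (0 : ℝ) 1)
  have h3 := ((e1.const_mul 11).add (h0.mul e2)).neg
  refine h3.congr_deriv ?_
  simp only [id, NN1]
  ring

theorem NN_eq (hP : Pot T ε w S f g) {t x : ℝ} (ht : t ∈ Ioo (-ε) T) (hx : x ∈ Icc (0 : ℝ) 1) :
    NN w t x = (-11 - 10 * (1 - x) * w t x) / PP w t x -
      (1 - x) * ((1 - 2 * x) * w t x + x * (1 - x) * dx 1 w t x) / PP w t x ^ 2 := by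
  have h := PP_pos hP ht hx
  unfold NN
  rw [RR_dx hP ht hx]
  unfold RR
  have hPP : PP w t x = 1 + x * (1 - x) * w t x := rfl
  field_simp
  rw [hPP]
  ring

/-- the function `l` with `L0 ρ = l (x(ρ))` -/
def ll (w g : ℝ → ℝ → ℝ) (t x : ℝ) : ℝ :=
  11 * Real.log (1 - x) - 10 * g t x - Real.log (PP w t x)

theorem ll_hasDeriv (hP : Pot T ε w S f g) {t x : ℝ} (ht : t ∈ Ioo (-ε) T)
    (hx : x ∈ Icc (0 : ℝ) 1) (hx1 : x < 1) :
    HasDerivWithinAt (ll w g t) (-11 / (1 - x) - 10 * w t x -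
      ((1 - 2 * x) * w t x + x * (1 - x) * dx 1 w t x) / PP w t x) (Icc 0 1) x := by
  have h0 := hasDerivWithinAt_id x (Icc (0 : ℝ) 1)
  have e1 := ((h0.const_sub 1).log (by simp only [id]; linarith)).const_mul 11
  have e2 := (hP.gx t ht x hx).const_mul 10
  have e3 := (PP_hasDeriv hP ht hx).log (PP_pos hP ht hx).ne'
  refine ((e1.sub e2).sub e3).congr_deriv ?_
  simp only [id]
  ring

theorem xr_mem_Ico (hX : Inv T ε w S g X) {t ρ : ℝ} (ht : t ∈ Ioo (-ε) T) (hρ : 0 ≤ ρ) :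
    xr X t ρ ∈ Icc (0 : ℝ) 1 ∧ xr X t ρ < 1 := by
  have h1 : ρ / (1 + ρ) ∈ Ico (0 : ℝ) 1 := by
    constructor
    · positivity
    · rw [div_lt_one (by linarith)]; linarith
  exact ⟨hX.mem t ht _ ⟨h1.1, h1.2.le⟩, hX.lt_one t ht _ h1⟩

/-- `ρ (1-x) = x e^g` -/
theorem rho_eq (hX : Inv T ε w S g X) {t ρ : ℝ} (ht : t ∈ Ioo (-ε) T) (hρ : 0 ≤ ρ) :
    ρ * (1 - xr X t ρ) = xr X t ρ * Real.exp (g t (xr X t ρ)) := by
  have h1 : ρ / (1 + ρ) ∈ Icc (0 : ℝ) 1 := by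
    constructor
    · positivity
    · rw [div_le_one (by linarith)]; linarith
  have h2 := hX.YX t ht _ h1
  obtain ⟨h3, h4⟩ := xr_mem_Ico hX ht hρ
  change YY g t (xr X t ρ) = _ at h2
  generalize xr X t ρ = x at *
  unfold YY DD at h2
  have he := Real.exp_pos (g t x)
  have hD : 0 < 1 - x + x * Real.exp (g t x) := by
    have := mul_nonneg h3.1 he.le
    linarith
  rw [div_eq_div_iff hD.ne' (by linarith)] at h2
  linarith

theorem rho_K1 (hX : Inv T ε w S g X) {t ρ : ℝ} (ht : t ∈ Ioo (-ε) T) (hρ : 0 ≤ ρ) :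
    ρ * K1 g X t ρ = xr X t ρ := by
  unfold K1
  rw [← mul_assoc, rho_eq hX ht hρ, mul_assoc, ← Real.exp_add]
  simp

theorem K1_pos' (hX : Inv T ε w S g X) {t ρ : ℝ} (ht : t ∈ Ioo (-ε) T) (hρ : 0 ≤ ρ) :
    0 < K1 g X t ρ := by
  have := (xr_mem_Ico hX ht hρ).2
  unfold K1
  exact mul_pos (by linarith) (Real.exp_pos _)

theorem L0_eq (hP : Pot T ε w S f g) (hX : Inv T ε w S g X) {t ρ : ℝ} (ht : t ∈ Ioo (-ε) T)
    (hρ : 0 ≤ ρ)
    (hadd : K1 g X t ρ + ρ * K2 w g X t ρ =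
      (1 - xr X t ρ) ^ 2 * Real.exp (-(g t (xr X t ρ))) / PP w t (xr X t ρ)) :
    L0 w g X t ρ = ll w g t (xr X t ρ) := by
  obtain ⟨h3, h4⟩ := xr_mem_Ico hX ht hρ
  have hPP := PP_pos hP ht h3
  unfold L0 ll
  rw [hadd]
  unfold K1
  generalize xr X t ρ = x at *
  have h1x : 0 < 1 - x := by linarith
  have he := Real.exp_pos (-(g t x))
  rw [Real.log_mul (by positivity) (by positivity), Real.log_pow,
    Real.log_mul h1x.ne' he.ne', Real.log_exp, Real.log_div (by positivity) hPP.ne',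
    Real.log_mul (by positivity) he.ne', Real.log_pow, Real.log_exp]
  push_cast
  ring

/-- F4c with the outputs of F4a as hypotheses -/
theorem exists_L_of (hP : Pot T ε w S f g) (hX : Inv T ε w S g X) {t : ℝ}
    (ht : t ∈ Ioo (-ε) T)
    (hK1 : ∀ ρ, 0 ≤ ρ → HasDerivWithinAt (K1 g X t) (K2 w g X t ρ) (Ici 0) ρ)
    (hadd : ∀ ρ, 0 ≤ ρ → K1 g X t ρ + ρ * K2 w g X t ρ =
      (1 - xr X t ρ) ^ 2 * Real.exp (-(g t (xr X t ρ))) / PP w t (xr X t ρ) ∧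
      0 < K1 g X t ρ + ρ * K2 w g X t ρ)
    (hxr : ∀ ρ, 0 ≤ ρ → HasDerivWithinAt (xr X t)
      ((1 - xr X t ρ) ^ 2 * Real.exp (-(g t (xr X t ρ))) / PP w t (xr X t ρ)) (Ici 0) ρ) :
    ∃ L1 L2 : ℝ → ℝ,
      (∀ ρ, 0 ≤ ρ → HasDerivWithinAt (L0 w g X t) (L1 ρ) (Ici 0) ρ) ∧
      (∀ ρ, 0 ≤ ρ → HasDerivWithinAt L1 (L2 ρ) (Ici 0) ρ) ∧
      ∀ ρ, 0 ≤ ρ → -(9 * (L1 ρ / K1 g X t ρ) +
        (L1 ρ + ρ * L2 ρ) / (K1 g X t ρ + ρ * K2 w g X t ρ)) = S t (xr X t ρ) := by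
  have hmaps : MapsTo (xr X t) (Ici 0) (Icc (0 : ℝ) 1) := fun ρ hρ => (xr_mem_Ico hX ht hρ).1
  refine ⟨fun ρ => NN w t (xr X t ρ) * K1 g X t ρ,
    fun ρ => NN1 w t (xr X t ρ) * (K1 g X t ρ + ρ * K2 w g X t ρ) * K1 g X t ρ +
      NN w t (xr X t ρ) * K2 w g X t ρ, ?_, ?_, ?_⟩
  · intro ρ hρ
    obtain ⟨h3, h4⟩ := xr_mem_Ico hX ht hρ
    have hPP := PP_pos hP ht h3
    have e1 := (ll_hasDeriv hP ht h3 h4).comp ρ (hxr ρ hρ) hmaps
    have e2 : HasDerivWithinAt (L0 w g X t) ((-11 / (1 - xr X t ρ) - 10 * w t (xr X t ρ) -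
      ((1 - 2 * xr X t ρ) * w t (xr X t ρ) + xr X t ρ * (1 - xr X t ρ) * dx 1 w t (xr X t ρ)) /
        PP w t (xr X t ρ)) * ((1 - xr X t ρ) ^ 2 * Real.exp (-(g t (xr X t ρ))) /
        PP w t (xr X t ρ))) (Ici 0) ρ := by
      refine e1.congr (fun y hy => ?_) ?_
      · exact L0_eq hP hX ht hy (hadd y hy).1
      · exact L0_eq hP hX ht hρ (hadd ρ hρ).1
    refine e2.congr_deriv ?_
    beta_reduce
    rw [NN_eq hP ht h3]
    unfold K1
    generalize xr X t ρ = x at *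
    have h1x : 1 - x ≠ 0 := by
      have : 0 < 1 - x := by linarith
      exact this.ne'
    have hPP' := hPP.ne'
    field_simp
  · intro ρ hρ
    obtain ⟨h3, h4⟩ := xr_mem_Ico hX ht hρ
    have e1 := (NN_hasDeriv hP ht h3).comp ρ (hxr ρ hρ) hmaps
    rw [← (hadd ρ hρ).1] at e1
    exact e1.mul (hK1 ρ hρ)
  · intro ρ hρ
    obtain ⟨h3, h4⟩ := xr_mem_Ico hX ht hρ
    have hk := K1_pos' hX ht hρ
    have hA := (hadd ρ hρ).2
    have e1 : NN w t (xr X t ρ) * K1 g X t ρ / K1 g X t ρ = NN w t (xr X t ρ) := by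
      field_simp
    have e2 : (NN w t (xr X t ρ) * K1 g X t ρ + ρ * (NN1 w t (xr X t ρ) *
        (K1 g X t ρ + ρ * K2 w g X t ρ) * K1 g X t ρ + NN w t (xr X t ρ) * K2 w g X t ρ)) /
        (K1 g X t ρ + ρ * K2 w g X t ρ) =
        NN w t (xr X t ρ) + xr X t ρ * NN1 w t (xr X t ρ) := by
      rw [div_eq_iff hA.ne', ← rho_K1 hX ht hρ]
      have := rho_K1 hX ht hρ
      rw [this]
      generalize xr X t ρ = x at *
      rw [← this]
      ring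
    simp only
    rw [e1, e2, ← RR_ode hP ht _ h3]
    unfold NN NN1
    ring

end

end Crest.Agent.R213.F
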