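import Crest.Prelude.Def_ProjKahler

/-!
# Row 213, part F: Wirtinger calculus on `V n` (helper380)

`HasW f z α β`: `f : V n → ℂ` is real differentiable at `z` with `∂ₐ f = α a`, `∂̄ₐ f = β a`.
-/

set_option autoImplicit false

open Set Filter Topology
open Crest.GeometryTopology.ProjKahler

noncomputable section

namespace Crest.Agent.R213.F.W

variable {n : ℕ}

/-- real linear functional `v ↦ ∑ (α_a v_a + β_a conj v_a)` -/
def WL (α β : Fin n → ℂ) : V n →L[ℝ] ℂ :=
  ∑ a, (α a • ((EuclideanSpace.proj (𝕜 := ℂ) a : V n →L[ℂ] ℂ).restrictScalars ℝ) +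
    β a • ((Complex.conjCLE : ℂ →L[ℝ] ℂ).comp
      ((EuclideanSpace.proj (𝕜 := ℂ) a : V n →L[ℂ] ℂ).restrictScalars ℝ)))

theorem WL_apply (α β : Fin n → ℂ) (v : V n) :
    WL α β v = ∑ a, (α a * v a + β a * (starRingEnd ℂ) (v a)) := by
  simp [WL]

/-- Wirtinger differentiability -/
def HasW (f : V n → ℂ) (z : V n) (α β : Fin n → ℂ) : Prop := HasFDerivAt (𝕜 := ℝ) f (WL α β) z

theorem bv_apply (a b : Fin n) : (bv a : V n) b = if b = a then 1 else 0 := by
  simp [bv]

theorem WL_bv (α β : Fin n → ℂ) (a : Fin n) : WL α β (bv a) = α a + β a := by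
  rw [WL_apply]
  simp only [bv_apply]
  rw [Finset.sum_eq_single a]
  · simp
  · intro b _ hb
    simp [hb]
  · simp

theorem WL_I_bv (α β : Fin n → ℂ) (a : Fin n) :
    WL α β (Complex.I • bv a) = Complex.I * α a - Complex.I * β a := by
  rw [WL_apply]
  have : ∀ b, (Complex.I • (bv a : V n)) b = if b = a then Complex.I else 0 := by
    intro b
    simp [bv_apply]
  simp only [this]
  rw [Finset.sum_eq_single a]
  · simp; ring
  · intro b _ hb
    simp [hb]
  · simp

theorem HasW.dz {f : V n → ℂ} {z : V n} {α β : Fin n → ℂ} (h : HasW f z α β) (a : Fin n) :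
    dz f z a = α a := by
  unfold Crest.GeometryTopology.ProjKahler.dz
  rw [HasFDerivAt.fderiv h, WL_bv, WL_I_bv]
  linear_combination (-(1 / 2) * (α a - β a)) * Complex.I_sq

theorem HasW.dzbar {f : V n → ℂ} {z : V n} {α β : Fin n → ℂ} (h : HasW f z α β) (a : Fin n) :
    dzbar f z a = β a := by
  unfold Crest.GeometryTopology.ProjKahler.dzbar
  rw [HasFDerivAt.fderiv h, WL_bv, WL_I_bv]
  linear_combination ((1 / 2) * (α a - β a)) * Complex.I_sq

theorem HasW.congr_coeff {f : V n → ℂ} {z : V n} {α β α' β' : Fin n → ℂ} (h : HasW f z α β)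
    (ha : ∀ a, α' a = α a) (hb : ∀ a, β' a = β a) : HasW f z α' β' := by
  have e1 : α' = α := funext ha
  have e2 : β' = β := funext hb
  rw [e1, e2]; exact h

theorem HasW.congr_fun {f f' : V n → ℂ} {z : V n} {α β : Fin n → ℂ} (h : HasW f z α β)
    (hf : ∀ u, f' u = f u) : HasW f' z α β := by
  have e1 : f' = f := funext hf
  rw [e1]; exact h

theorem hasW_const (c : ℂ) (z : V n) : HasW (fun _ => c) z 0 0 := by
  have h : WL (0 : Fin n → ℂ) 0 = 0 := by
    ext v; rw [WL_apply]; simp
  unfold HasW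
  rw [h]
  exact hasFDerivAt_const c z

theorem hasW_coord (j : Fin n) (z : V n) :
    HasW (fun u => u j) z (fun a => if a = j then 1 else 0) 0 := by
  have h : WL (fun a => if a = j then (1 : ℂ) else 0) 0 =
      ((EuclideanSpace.proj (𝕜 := ℂ) j : V n →L[ℂ] ℂ).restrictScalars ℝ) := by
    ext v; rw [WL_apply]; simp
  unfold HasW
  rw [h]
  exact ((EuclideanSpace.proj (𝕜 := ℂ) j : V n →L[ℂ] ℂ).restrictScalars ℝ).hasFDerivAt

theorem hasW_conj (j : Fin n) (z : V n) :
    HasW (fun u => (starRingEnd ℂ) (u j)) z 0 (fun a => if a = j then 1 else 0) := by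
  have h : WL 0 (fun a => if a = j then (1 : ℂ) else 0) =
      (Complex.conjCLE : ℂ →L[ℝ] ℂ).comp
      ((EuclideanSpace.proj (𝕜 := ℂ) j : V n →L[ℂ] ℂ).restrictScalars ℝ) := by
    ext v; rw [WL_apply]; simp
  unfold HasW
  rw [h]
  exact ((Complex.conjCLE : ℂ →L[ℝ] ℂ).comp
      ((EuclideanSpace.proj (𝕜 := ℂ) j : V n →L[ℂ] ℂ).restrictScalars ℝ)).hasFDerivAt

theorem HasW.add {f g : V n → ℂ} {z : V n} {α β α' β' : Fin n → ℂ} (hf : HasW f z α β)
    (hg : HasW g z α' β') : HasW (fun u => f u + g u) z (fun a => α a + α' a)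
      (fun a => β a + β' a) := by
  have h : WL (fun a => α a + α' a) (fun a => β a + β' a) = WL α β + WL α' β' := by
    ext v
    rw [add_apply, WL_apply, WL_apply, WL_apply, ← Finset.sum_add_distrib]
    exact Finset.sum_congr rfl fun a _ => by ring
  unfold HasW
  rw [h]
  exact HasFDerivAt.add hf hg

theorem HasW.sub {f g : V n → ℂ} {z : V n} {α β α' β' : Fin n → ℂ} (hf : HasW f z α β)
    (hg : HasW g z α' β') : HasW (fun u => f u - g u) z (fun a => α a - α' a)
      (fun a => β a - β' a) := by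
  have h : WL (fun a => α a - α' a) (fun a => β a - β' a) = WL α β - WL α' β' := by
    ext v
    rw [sub_apply, WL_apply, WL_apply, WL_apply, ← Finset.sum_sub_distrib]
    exact Finset.sum_congr rfl fun a _ => by ring
  unfold HasW
  rw [h]
  exact HasFDerivAt.sub hf hg

theorem HasW.mul {f g : V n → ℂ} {z : V n} {α β α' β' : Fin n → ℂ} (hf : HasW f z α β)
    (hg : HasW g z α' β') : HasW (fun u => f u * g u) z (fun a => f z * α' a + g z * α a)
      (fun a => f z * β' a + g z * β a) := by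
  have h : WL (fun a => f z * α' a + g z * α a) (fun a => f z * β' a + g z * β a) =
      f z • WL α' β' + g z • WL α β := by
    ext v
    rw [add_apply, smul_apply, smul_apply, WL_apply, WL_apply, WL_apply, smul_eq_mul, smul_eq_mul,
      Finset.mul_sum, Finset.mul_sum, ← Finset.sum_add_distrib]
    exact Finset.sum_congr rfl fun a _ => by ring
  unfold HasW
  rw [h]
  exact HasFDerivAt.mul hf hg

theorem HasW.sum {ι : Type*} {I : Finset ι} {f : ι → V n → ℂ} {z : V n} {α β : ι → Fin n → ℂ}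
    (h : ∀ i ∈ I, HasW (f i) z (α i) (β i)) :
    HasW (fun u => ∑ i ∈ I, f i u) z (fun a => ∑ i ∈ I, α i a) (fun a => ∑ i ∈ I, β i a) := by
  classical
  induction I using Finset.induction_on with
  | empty =>
    simp only [Finset.sum_empty]
    exact hasW_const 0 z
  | insert i I hi ih =>
    simp only [Finset.sum_insert hi]
    exact (h i (Finset.mem_insert_self i I)).add
      (ih fun j hj => h j (Finset.mem_insert_of_mem hj))

/-- composition of a real-valued function with a function of one variable (one-sided) -/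
theorem HasW.comp_within {f : V n → ℝ} {z : V n} {α β : Fin n → ℂ} {K : ℝ → ℝ} {K' : ℝ}
    {S : Set ℝ} (hf : HasW (fun u => (f u : ℂ)) z α β) (hK : HasDerivWithinAt K K' S (f z))
    (hS : ∀ u, f u ∈ S) :
    HasW (fun u => (K (f u) : ℂ)) z (fun a => K' * α a) (fun a => K' * β a) := by
  have hre : HasFDerivAt (𝕜 := ℝ) f (Complex.reCLM.comp (WL α β)) z := by
    have := (Complex.reCLM.hasFDerivAt (x := ((f z : ℝ) : ℂ))).comp z hf
    exact this
  have him : HasFDerivAt (𝕜 := ℝ) (fun _ : V n => (0 : ℝ)) (Complex.imCLM.comp (WL α β)) z := by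
    have := (Complex.imCLM.hasFDerivAt (x := ((f z : ℝ) : ℂ))).comp z hf
    exact this
  have hzero : Complex.imCLM.comp (WL α β) = 0 := him.unique (hasFDerivAt_const (0 : ℝ) z)
  have hreal : ∀ v, WL α β v = (((WL α β v).re : ℝ) : ℂ) := by
    intro v
    have : (WL α β v).im = 0 := by
      have := congrArg (fun T => T v) hzero
      simpa using this
    apply Complex.ext <;> simp [this]
  have hKf : HasFDerivAt (𝕜 := ℝ) (fun u => K (f u)) (K' • (Complex.reCLM.comp (WL α β))) z := by
    have h1 : HasFDerivWithinAt K (ContinuousLinearMap.toSpanSingleton ℝ K') S (f z) :=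
      hK.hasFDerivWithinAt
    have h2 := HasFDerivWithinAt.comp (f := f) (s := univ) z h1 hre.hasFDerivWithinAt
      (fun u _ => hS u)
    rw [hasFDerivWithinAt_univ] at h2
    have e : K' • (Complex.reCLM.comp (WL α β)) =
        (ContinuousLinearMap.toSpanSingleton ℝ K').comp (Complex.reCLM.comp (WL α β)) := by
      ext v
      simp [mul_comm]
    rw [e]
    exact h2
  have h3 : HasFDerivAt (𝕜 := ℝ) (fun u => ((K (f u) : ℝ) : ℂ))
      (Complex.ofRealCLM.comp (K' • (Complex.reCLM.comp (WL α β)))) z :=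
    (Complex.ofRealCLM.hasFDerivAt (x := K (f z))).comp z hKf
  have e : WL (fun a => (K' : ℂ) * α a) (fun a => (K' : ℂ) * β a) =
      Complex.ofRealCLM.comp (K' • (Complex.reCLM.comp (WL α β))) := by
    ext v
    have h4 : (Complex.ofRealCLM.comp (K' • (Complex.reCLM.comp (WL α β)))) v =
        (K' : ℂ) * (((WL α β v).re : ℝ) : ℂ) := by
      simp
    rw [h4, ← hreal v, WL_apply, WL_apply, Finset.mul_sum]
    exact Finset.sum_congr rfl fun a _ => by ring
  unfold HasW
  rw [e]
  exact h3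

theorem HasW.comp_real {f : V n → ℝ} {z : V n} {α β : Fin n → ℂ} {K : ℝ → ℝ} {K' : ℝ}
    (hf : HasW (fun u => (f u : ℂ)) z α β) (hK : HasDerivAt K K' (f z)) :
    HasW (fun u => (K (f u) : ℂ)) z (fun a => K' * α a) (fun a => K' * β a) :=
  hf.comp_within (S := univ) hK.hasDerivWithinAt fun _ => mem_univ _

/-- `|u_j|²` -/
theorem hasW_sq (j : Fin n) (z : V n) :
    HasW (fun u => ((‖u j‖ ^ 2 : ℝ) : ℂ)) z (fun a => if a = j then (starRingEnd ℂ) (z j) else 0)
      (fun a => if a = j then z j else 0) := by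
  have h := (hasW_coord j z).mul (hasW_conj j z)
  refine (h.congr_fun ?_).congr_coeff ?_ ?_
  · intro u
    rw [Complex.mul_conj']
    push_cast
    rfl
  · intro a
    by_cases ha : a = j <;> simp [ha]
  · intro a
    by_cases ha : a = j <;> simp [ha]

theorem norm_sq_eq_sum (u : V n) : ‖u‖ ^ 2 = ∑ j, ‖u j‖ ^ 2 := EuclideanSpace.norm_sq_eq u

/-- `‖u‖²` -/
theorem hasW_normSq (z : V n) :
    HasW (fun u => ((‖u‖ ^ 2 : ℝ) : ℂ)) z (fun a => (starRingEnd ℂ) (z a)) (fun a => z a) := by
  have h := HasW.sum (I := Finset.univ) (f := fun (j : Fin n) (u : V n) => ((‖u j‖ ^ 2 : ℝ) : ℂ))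
    (z := z) (fun j _ => hasW_sq j z)
  refine (h.congr_fun ?_).congr_coeff ?_ ?_
  · intro u
    rw [norm_sq_eq_sum]
    push_cast
    rfl
  · intro a; simp
  · intro a; simp

end Crest.Agent.R213.F.W
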